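import Vale.Agent.P058.Ultra

/-! The abelian part, first half: group rings and light negative parts. -/

namespace Vale.Agent.P058

open Finset

abbrev ZA (X : Type) : Type := AddMonoidAlgebra ℤ X

section generic
variable {X Y : Type} [AddCommGroup X] [AddCommGroup Y] {R : Type} [CommRing R]

noncomputable def ee (x : X) : ZA X := AddMonoidAlgebra.single x 1

lemma ee_add (x y : X) : ee (x + y) = ee x * ee y := by
  simp [ee, AddMonoidAlgebra.single_mul_single]

lemma ee_zero : ee (0 : X) = 1 := rfl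

noncomputable def lf (f : X → R) (h0 : f 0 = 1) (hadd : ∀ x y, f (x + y) = f x * f y) :
    ZA X →+* R :=
  (AddMonoidAlgebra.lift ℤ R X ⟨⟨fun x => f x.toAdd, h0⟩, fun _ _ => hadd _ _⟩).toRingHom

lemma lf_ee (f : X → R) (h0 : f 0 = 1) (hadd : ∀ x y, f (x + y) = f x * f y) (x : X) :
    lf f h0 hadd (ee x) = f x := by
  simp [lf, ee]

lemma za_ind {p : ZA X → Prop} (z : ZA X) (he : ∀ x, p (ee x)) (h0 : p 0)
    (hadd : ∀ x y, p x → p y → p (x + y)) (hneg : ∀ x, p x → p (-x)) : p z := by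
  induction z using AddMonoidAlgebra.induction_on with
  | of m => exact he m
  | add x y hx hy => exact hadd x y hx hy
  | smul r x hx =>
    induction r using Int.induction_on with
    | zero => simpa using h0
    | succ n ih => rw [add_smul, one_smul]; exact hadd _ _ ih hx
    | pred n ih => rw [sub_smul, one_smul, sub_eq_add_neg]; exact hadd _ _ ih (hneg _ hx)

lemma za_ext {f g : ZA X →+* R} (h : ∀ x, f (ee x) = g (ee x)) (z : ZA X) : f z = g z := by
  induction z using za_ind with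
  | he x => exact h x
  | h0 => simp
  | hadd x y hx hy => simp [hx, hy]
  | hneg x hx => simp [hx]

noncomputable def mp (f : X →+ Y) : ZA X →+* ZA Y :=
  lf (fun x => ee (f x)) (by simp [ee_zero]) (fun x y => by simp [ee_add])

lemma mp_ee (f : X →+ Y) (x : X) : mp f (ee x) = ee (f x) := lf_ee _ _ _ _

noncomputable def aug : ZA X →+* ℤ := lf (fun _ => 1) rfl (fun _ _ => rfl)

lemma aug_ee (x : X) : aug (ee x) = 1 := lf_ee _ _ _ _

variable (X) in
noncomputable def PP : AddSubmonoid (ZA X) := AddSubmonoid.closure (Set.range ee)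

omit [AddCommGroup X] in
lemma ee_mem (x : X) : ee x ∈ PP X := AddSubmonoid.subset_closure ⟨x, rfl⟩

lemma PP_ind {p : ZA X → Prop} {z : ZA X} (hz : z ∈ PP X) (he : ∀ x, p (ee x)) (h0 : p 0)
    (hadd : ∀ x y, p x → p y → p (x + y)) : p z := by
  induction hz using AddSubmonoid.closure_induction with
  | mem x hx => obtain ⟨y, rfl⟩ := hx; exact he y
  | zero => exact h0
  | add x y _ _ hx hy => exact hadd x y hx hy

lemma PP_mul {x y : ZA X} (hx : x ∈ PP X) (hy : y ∈ PP X) : x * y ∈ PP X := by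
  refine PP_ind (p := fun x => x * y ∈ PP X) hx (fun s => ?_) (by simp)
    (fun u v hu hv => by rw [add_mul]; exact add_mem hu hv)
  exact PP_ind (p := fun y => ee s * y ∈ PP X) hy (fun t => ee_add s t ▸ ee_mem _) (by simp)
    (fun u v hu hv => by rw [mul_add]; exact add_mem hu hv)

lemma PP_mp (f : X →+ Y) {x : ZA X} (hx : x ∈ PP X) : mp f x ∈ PP Y :=
  PP_ind (p := fun x => mp f x ∈ PP Y) hx (fun s => mp_ee f s ▸ ee_mem _) (by simp)
    (fun u v hu hv => by rw [map_add]; exact add_mem hu hv)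

lemma aug_nonneg {x : ZA X} (hx : x ∈ PP X) : 0 ≤ aug x :=
  PP_ind (p := fun x => 0 ≤ aug x) hx (fun s => by rw [aug_ee]; norm_num) (by simp)
    (fun u v hu hv => by rw [map_add]; positivity)

lemma exists_PP (z : ZA X) : ∃ m ∈ PP X, z + m ∈ PP X := by
  induction z using za_ind with
  | he x => exact ⟨0, zero_mem _, by simpa using ee_mem x⟩
  | h0 => exact ⟨0, zero_mem _, by simp⟩
  | hadd x y hx hy =>
    obtain ⟨m, h1, h2⟩ := hx
    obtain ⟨m', h3, h4⟩ := hy
    exact ⟨m + m', add_mem h1 h3, by convert add_mem h2 h4 using 1; abel⟩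
  | hneg x hx =>
    obtain ⟨m, h1, h2⟩ := hx
    exact ⟨x + m, h2, by simpa using h1⟩

noncomputable def io (M : Multiset X) : ZA X := (M.map ee).sum

lemma exists_io {x : ZA X} (hx : x ∈ PP X) : ∃ M, io M = x :=
  PP_ind (p := fun x => ∃ M, io M = x) hx (fun s => ⟨{s}, by simp [io]⟩) ⟨0, by simp [io]⟩
    (by rintro _ _ ⟨M, rfl⟩ ⟨N, rfl⟩; exact ⟨M + N, by simp [io]⟩)

lemma io_inj {M N : Multiset X} (h : io M = io N) : M = N := by
  classical
  have key : ∀ (M : Multiset X) (x : X), (io M).coeff x = M.count x := by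
    intro M x
    induction M using Multiset.induction_on with
    | empty => simp [io]
    | cons y M ih =>
      have : io (y ::ₘ M) = ee y + io M := by simp [io]
      rw [this, AddMonoidAlgebra.coeff_add, Finsupp.add_apply, ih, Multiset.count_cons]
      simp [ee, Finsupp.single_apply, eq_comm, add_comm]
  ext x
  have := key M x
  rw [h, key] at this
  exact_mod_cast this.symm

lemma mp_io (f : X →+ Y) (M : Multiset X) : mp f (io M) = io (M.map f) := by
  simp [io, map_multiset_sum, mp_ee]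

noncomputable def dil (n : ℕ) : ZA X →+* ZA X := mp (nsmulAddMonoidHom n)

lemma dil_ee (n : ℕ) (x : X) : dil n (ee x) = ee (n • x) := mp_ee _ _

lemma mp_dil (f : X →+ Y) (n : ℕ) (z : ZA X) : mp f (dil n z) = dil n (mp f z) :=
  za_ext (f := (mp f).comp (dil n)) (g := (dil n).comp (mp f))
    (fun x => by simp [dil_ee, mp_ee]) z

variable (X) in
noncomputable def JJ : Ideal (ZA X) := Ideal.span (Set.range (fun t : X => ee t - 1))

lemma gen_mem (t : X) : ee t - 1 ∈ JJ X := Ideal.subset_span ⟨t, rfl⟩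

lemma JJ_mul_le {K K' : Ideal (ZA X)} (h : ∀ t, ∀ s ∈ K, (ee t - 1) * s ∈ K') :
    JJ X * K ≤ K' := by
  rw [Ideal.mul_le]
  intro r hr s hs
  induction hr using Submodule.span_induction with
  | mem x hx => obtain ⟨t, rfl⟩ := hx; exact h t s hs
  | zero => simp
  | add x y _ _ hx hy => rw [add_mul]; exact add_mem hx hy
  | smul c x _ hx => rw [smul_eq_mul, mul_assoc]; exact K'.mul_mem_left _ hx

lemma aug_JJ {x : ZA X} (hx : x ∈ JJ X) : aug x = 0 := by
  have : JJ X ≤ RingHom.ker (aug (X := X)) := Ideal.span_le.2 (by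
    rintro _ ⟨t, rfl⟩
    simp [aug_ee])
  exact this hx

lemma dil_sub (n : ℕ) (r : ZA X) : dil n r - r ∈ JJ X := by
  induction r using za_ind with
  | he x =>
    rw [dil_ee]
    convert sub_mem (gen_mem (n • x)) (gen_mem x) using 1
    ring
  | h0 => simp
  | hadd x y hx hy => convert add_mem hx hy using 1; rw [map_add]; ring
  | hneg x hx => convert neg_mem hx using 1; rw [map_neg]; ring

lemma dil_JJ (n : ℕ) {x : ZA X} (hx : x ∈ JJ X) : dil n x - n * x ∈ JJ X ^ 2 := by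
  induction hx using Submodule.span_induction with
  | mem x hx =>
    obtain ⟨t, rfl⟩ := hx
    simp only [map_sub, map_one, dil_ee]
    induction n with
    | zero => simp [ee_zero]
    | succ n ih =>
      have h1 : (ee (n • t) - 1) * (ee t - 1) ∈ JJ X ^ 2 := by
        rw [sq]; exact Ideal.mul_mem_mul (gen_mem _) (gen_mem _)
      convert add_mem ih h1 using 1
      rw [succ_nsmul, ee_add]; push_cast; ring
  | zero => simp
  | add x y _ _ hx hy => convert add_mem hx hy using 1; rw [map_add]; ring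
  | smul c x hx0 hx =>
    have h1 : (dil n c - c) * x ∈ JJ X ^ 2 := by
      rw [sq]; exact Ideal.mul_mem_mul (dil_sub n c) hx0
    convert add_mem (Ideal.mul_mem_left _ (dil n c) hx) (Ideal.mul_mem_left _ (n : ZA X) h1) using 1
    rw [smul_eq_mul, map_mul]; ring

lemma dil_pow (n j : ℕ) {x : ZA X} (hx : x ∈ JJ X ^ j) :
    dil n x ∈ JJ X ^ j ∧ dil n x - n ^ j * x ∈ JJ X ^ (j + 1) := by
  induction j generalizing x with
  | zero => simpa using dil_sub n x
  | succ j ih =>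
    rw [pow_succ'] at hx
    refine Submodule.mul_induction_on hx (fun u hu v hv => ?_) (fun u v hu hv => ?_)
    · obtain ⟨h1, h2⟩ := ih hv
      have h3 : dil n u ∈ JJ X := by
        convert add_mem (dil_sub n u) hu using 1; ring
      refine ⟨by rw [map_mul, pow_succ']; exact Ideal.mul_mem_mul h3 h1, ?_⟩
      have h4 : (dil n u - n * u) * dil n v ∈ JJ X ^ (j + 1 + 1) := by
        rw [show j + 1 + 1 = 2 + j by ring, pow_add]
        exact Ideal.mul_mem_mul (dil_JJ n hu) h1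
      have h5 : u * (dil n v - n ^ j * v) ∈ JJ X ^ (j + 1 + 1) := by
        rw [pow_succ']
        exact Ideal.mul_mem_mul hu h2
      convert add_mem h4 (Ideal.mul_mem_left _ (n : ZA X) h5) using 1
      rw [map_mul]; ring
    · refine ⟨by rw [map_add]; exact add_mem hu.1 hv.1, ?_⟩
      convert add_mem hu.2 hv.2 using 1
      rw [map_add]; ring

end generic

variable {d : ℕ}

def evH (x : E d) : HH d →+ ℝ where
  toFun := ev x
  map_zero' := by simp [ev]
  map_add' h h' := by simp [ev, mul_add, sum_add_distrib]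

def kapH (d : ℕ) : ℝ →+ HH d where
  toFun := kap d
  map_zero' := by simp [kap]
  map_add' s t := by simp [kap, Pi.single_add]

lemma kapH_apply (t : ℝ) : kapH d t = kap d t := rfl

lemma mp_kap (x : E d) (v : ZA ℝ) : mp (evH x) (mp (kapH d) v) = v :=
  za_ext (f := (mp (evH x)).comp (mp (kapH d))) (g := RingHom.id _)
    (fun t => by
      rw [RingHom.comp_apply, mp_ee, mp_ee]
      exact congrArg ee (ev_kap x t)) v

open TrivSqZeroExt in
noncomputable def psi (α β : Fin d) : ZA (HH d) →+* DualNumber (DualNumber ℝ) :=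
  lf (X := HH d) (R := DualNumber (DualNumber ℝ))
    (fun h => inl (inl 1 + inr (h (some α))) + inr (inl (h (some β)) +
    inr (h (some α) * h (some β)))) (by ext <;> simp) (fun x y => by ext <;> simp <;> ring)

noncomputable def Qz : ZA (HH d) →+ MM d where
  toFun z := Matrix.of fun α β => (psi α β z).snd.snd
  map_zero' := by ext; simp
  map_add' x y := by ext; simp

lemma Qz_ee (h : HH d) : Qz (ee h) = QQ h := by
  ext α β; simp [Qz, psi, lf_ee, QQ]

lemma psi_kap (α β : Fin d) (v : ZA ℝ) : psi α β (mp (kapH d) v) = (aug v : ℤ) :=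
  za_ext (R := DualNumber (DualNumber ℝ)) (f := (psi α β).comp (mp (kapH d)))
    (g := (Int.castRingHom (DualNumber (DualNumber ℝ))).comp aug)
    (fun t => by ext <;> simp [mp_ee, psi, lf_ee, kapH_apply, kap, aug_ee]) v

lemma Qz_kap (v : ZA ℝ) (z : ZA (HH d)) : Qz (mp (kapH d) v * z) = (aug v : ℝ) • Qz z := by
  ext α β
  simp only [Qz, AddMonoidHom.coe_mk, ZeroHom.coe_mk, Matrix.of_apply, map_mul, psi_kap,
    Matrix.smul_apply, smul_eq_mul]
  rw [← zsmul_eq_mul, TrivSqZeroExt.snd_smul, TrivSqZeroExt.snd_smul, zsmul_eq_mul]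

lemma Qz_dil (n : ℕ) (z : ZA (HH d)) : Qz (dil n z) = ((n : ℝ) ^ 2) • Qz z := by
  induction z using za_ind with
  | he x => rw [dil_ee, Qz_ee, Qz_ee, ← Nat.cast_smul_eq_nsmul ℝ, QQ_smul]
  | h0 => simp
  | hadd x y hx hy => simp [hx, hy]
  | hneg x hx => simp [hx]

variable (d) in
noncomputable def I3 : Ideal (ZA (HH d)) := ⨅ α, ⨅ β, RingHom.ker (psi α β)

lemma Qz_I3 {w : ZA (HH d)} (hw : w ∈ I3 d) : Qz w = 0 := by
  ext α β
  simp only [I3, Ideal.mem_iInf, RingHom.mem_ker] at hw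
  simp [Qz, hw]

lemma kap_I3 {v : ZA ℝ} (hv : v ∈ JJ ℝ) : mp (kapH d) v ∈ I3 d := by
  simp [I3, RingHom.mem_ker, psi_kap, aug_JJ hv]

lemma tr_nonneg {m : ZA (HH d)} (hm : m ∈ PP (HH d)) : 0 ≤ (Qz m).trace :=
  PP_ind (p := fun m => 0 ≤ (Qz m).trace) hm
    (fun h => by rw [Qz_ee, trace_QQ]; positivity) (by simp)
    (fun u v hu hv => by rw [map_add, Matrix.trace_add]; positivity)

def Ng (z : ZA (HH d)) (ε : ℝ) : Prop :=
  ∃ m ∈ PP (HH d), z + m ∈ PP (HH d) ∧ (Qz m).trace ≤ ε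

lemma Ng.add {z z' : ZA (HH d)} {ε ε' : ℝ} (h : Ng z ε) (h' : Ng z' ε') :
    Ng (z + z') (ε + ε') := by
  obtain ⟨m, h1, h2, h3⟩ := h
  obtain ⟨m', k1, k2, k3⟩ := h'
  refine ⟨m + m', add_mem h1 k1, by convert add_mem h2 k2 using 1; abel, ?_⟩
  rw [map_add, Matrix.trace_add]; linarith

lemma Ng.mono {z : ZA (HH d)} {ε ε' : ℝ} (h : Ng z ε) (h' : ε ≤ ε') : Ng z ε' := by
  obtain ⟨m, h1, h2, h3⟩ := h
  exact ⟨m, h1, h2, h3.trans h'⟩

lemma Ng.zero : Ng (0 : ZA (HH d)) 0 := ⟨0, zero_mem _, by simp, by simp⟩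

lemma Ng.kap {z : ZA (HH d)} {ε : ℝ} (h : Ng z ε) {M : ZA ℝ} (hM : M ∈ PP ℝ) :
    Ng (mp (kapH d) M * z) (aug M * ε) := by
  obtain ⟨m, h1, h2, h3⟩ := h
  refine ⟨_, PP_mul (PP_mp _ hM) h1, by rw [← mul_add]; exact PP_mul (PP_mp _ hM) h2, ?_⟩
  rw [Qz_kap, Matrix.trace_smul, smul_eq_mul]
  exact mul_le_mul_of_nonneg_left h3 (by exact_mod_cast aug_nonneg hM)

lemma Ng.neg {z : ZA (HH d)} {ε : ℝ} (h : Ng z ε) : Ng (-z) (ε + (Qz z).trace) := by
  obtain ⟨m, h1, h2, h3⟩ := h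
  refine ⟨z + m, h2, by simpa using h1, ?_⟩
  rw [map_add, Matrix.trace_add]; linarith

lemma Ng.nsmul {z : ZA (HH d)} {ε : ℝ} (h : Ng z ε) (n : ℕ) :
    Ng ((n : ZA (HH d)) * z) (n * ε) := by
  induction n with
  | zero => simpa using Ng.zero
  | succ n ih => simpa [add_mul] using ih.add h

lemma Ng.dil {z : ZA (HH d)} {ε : ℝ} (h : Ng z ε) (n : ℕ) : Ng (dil n z) (n ^ 2 * ε) := by
  obtain ⟨m, h1, h2, h3⟩ := h
  refine ⟨_, PP_mp (nsmulAddMonoidHom n) h1, ?_, ?_⟩
  · have := PP_mp (nsmulAddMonoidHom n) h2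
    rwa [map_add] at this
  · have := Qz_dil n m
    unfold P058.dil at this
    rw [this, Matrix.trace_smul, smul_eq_mul]
    gcongr

lemma exists_Ng (z : ZA (HH d)) : ∃ ε, 0 ≤ ε ∧ Ng z ε := by
  obtain ⟨m, h1, h2⟩ := exists_PP z
  exact ⟨_, tr_nonneg h1, m, h1, h2, le_rfl⟩

variable {ι : Type} (a : ι → E d)

def AJ (j : ℕ) : Prop := ∀ ε : ℝ, 0 < ε → ∃ (z : ZA (HH d)) (c : ℝ), 0 < c ∧
  (∀ i, mp (evH (a i)) z ∈ JJ ℝ ^ j) ∧ Qz z = c • (1 : MM d) ∧ Ng z (ε * c)

variable {a}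

lemma AJ.succ {j : ℕ} (hj : 3 ≤ j) (h : AJ a j) : AJ a (j + 1) := by
  intro ε hε
  obtain ⟨z, c, hc, h1, h2, h3⟩ := h (ε / 4) (by positivity)
  obtain ⟨n, hn⟩ := exists_nat_ge (4 + 4 * d / ε)
  have hd : 0 ≤ 4 * (d : ℝ) / ε := by positivity
  have hn2 : (4 : ℝ) ≤ n := by linarith
  have hn3 : (n : ℝ) ^ 3 ≤ n ^ j := pow_le_pow_right₀ (by linarith) hj
  have hn4 : 4 * (d : ℝ) ≤ ε * n := by
    have : 4 * (d : ℝ) / ε ≤ n := by linarith
    rwa [div_le_iff₀ hε, mul_comm (n : ℝ)] at this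
  have hsq : (0 : ℝ) < n ^ 2 := by positivity
  have hn5 : 4 * (n : ℝ) ^ 2 ≤ n ^ 3 := by nlinarith
  refine ⟨(n ^ j : ℕ) * z + -(dil n z), ((n : ℝ) ^ j - n ^ 2) * c, ?_, fun i => ?_, ?_, ?_⟩
  · apply mul_pos _ hc; nlinarith
  · have := neg_mem (dil_pow n j (h1 i)).2
    convert this using 1
    rw [map_add, map_neg, map_mul, mp_dil, map_natCast]; push_cast; ring
  · rw [map_add, map_neg, ← nsmul_eq_mul, map_nsmul, Qz_dil, h2, ← Nat.cast_smul_eq_nsmul ℝ,
      smul_smul, smul_smul, sub_mul, sub_smul]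
    push_cast
    abel
  · refine ((h3.nsmul (n ^ j)).add (h3.dil n).neg).mono ?_
    rw [Qz_dil, h2, smul_smul, Matrix.trace_smul, Matrix.trace_one, Fintype.card_fin, smul_eq_mul]
    push_cast
    have h6 : (n : ℝ) ^ 2 * (4 * d) ≤ n ^ 2 * (ε * n) := by gcongr
    have h7 : ε * n ^ 3 ≤ ε * n ^ j := by gcongr
    have h8 : ε * (4 * n ^ 2) ≤ ε * n ^ 3 := by gcongr
    have h9 : (n : ℝ) ^ j * (ε / 4) + (n ^ 2 * (ε / 4) + n ^ 2 * d) ≤ ε * (n ^ j - n ^ 2) := by
      nlinarith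
    nlinarith

lemma AJ.all (h : AJ a 3) (j : ℕ) : AJ a (j + 3) := by
  induction j with
  | zero => exact h
  | succ j ih => exact ih.succ (by omega)

variable (a) in
noncomputable def KK (i : ι) (S : Finset ι) : Ideal (ZA ℝ) :=
  Ideal.map (mp (evH (a i))) (I3 d ⊓ ⨅ j ∈ S, RingHom.ker (mp (evH (a j))))

lemma mem_KK {i : ι} {S : Finset ι} {v : ZA ℝ} : v ∈ KK a i S ↔
    ∃ w ∈ I3 d, (∀ j ∈ S, mp (evH (a j)) w = 0) ∧ mp (evH (a i)) w = v := by
  unfold KK
  rw [Ideal.mem_map_iff_of_surjective _ (fun v => ⟨_, mp_kap _ v⟩)]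
  simp [and_assoc]

lemma pow_le_KK (ha : Function.Injective a) (i : ι) (S : Finset ι) (hi : i ∉ S) :
    JJ ℝ ^ (S.card + 1) ≤ KK a i S := by
  classical
  induction S using Finset.induction_on with
  | empty =>
    intro v hv
    exact mem_KK.2 ⟨_, kap_I3 (by simpa using hv), by simp, mp_kap _ v⟩
  | insert j S hj ih =>
    rw [mem_insert, not_or] at hi
    rw [card_insert_of_notMem hj, pow_succ']
    refine (Ideal.mul_mono_right (ih hi.2)).trans (JJ_mul_le (fun t s hs => ?_))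
    obtain ⟨w, h1, h2, h3⟩ := mem_KK.1 hs
    obtain ⟨K, -, hK⟩ := exists_col (ha.ne hi.1)
    obtain ⟨h, e1, e2, -⟩ := hK t 0
    refine mem_KK.2 ⟨(ee h - 1) * w, Ideal.mul_mem_left _ _ h1, ?_, ?_⟩
    · intro k hk
      rcases mem_insert.1 hk with rfl | hk
      · simp [mp_ee, evH, e2, ee_zero]
      · simp [h2 k hk]
    · rw [map_mul, h3]; simp [mp_ee, evH, e1]

variable (a) in
def VV (v : ι → ZA ℝ) : Prop := ∀ ε : ℝ, 0 < ε → ∃ M ∈ PP ℝ, 0 < aug M ∧ ∃ w ∈ I3 d,
  (∀ i, mp (evH (a i)) w = M * v i) ∧ Ng w (ε * aug M)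

lemma VV.add {v v' : ι → ZA ℝ} (h : VV a v) (h' : VV a v') : VV a (v + v') := by
  intro ε hε
  obtain ⟨M, h1, h2, w, h3, h4, h5⟩ := h (ε / 2) (half_pos hε)
  obtain ⟨M', k1, k2, w', k3, k4, k5⟩ := h' (ε / 2) (half_pos hε)
  refine ⟨M * M', PP_mul h1 k1, by rw [map_mul]; positivity,
    mp (kapH d) M' * w + mp (kapH d) M * w',
    add_mem (Ideal.mul_mem_left _ _ h3) (Ideal.mul_mem_left _ _ k3), fun i => ?_, ?_⟩
  · simp only [map_add, map_mul, mp_kap, h4, k4, Pi.add_apply]; ring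
  · refine ((h5.kap k1).add (k5.kap h1)).mono (le_of_eq ?_)
    rw [map_mul]; push_cast; ring

lemma VV.zero : VV a 0 := fun ε hε =>
  ⟨ee 0, ee_mem _, by simp [aug_ee], 0, zero_mem _, by simp,
    Ng.zero.mono (by simp [aug_ee, hε.le])⟩

lemma VV.smul {v : ι → ZA ℝ} (h : VV a v) (r : ZA ℝ) : VV a (r • v) := by
  induction r using za_ind with
  | he t =>
    intro ε hε
    obtain ⟨M, h1, h2, w, h3, h4, h5⟩ := h ε hε
    refine ⟨M, h1, h2, mp (kapH d) (ee t) * w, Ideal.mul_mem_left _ _ h3, fun i => ?_, ?_⟩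
    · simp only [map_mul, mp_kap, h4, Pi.smul_apply, smul_eq_mul]; ring
    · simpa [aug_ee] using h5.kap (ee_mem t)
  | h0 => simpa using VV.zero
  | hadd x y hx hy => rw [add_smul]; exact hx.add hy
  | hneg x hx =>
    intro ε hε
    obtain ⟨M, h1, h2, w, h3, h4, h5⟩ := hx ε hε
    refine ⟨M, h1, h2, -w, neg_mem h3, fun i => by simp [h4], ?_⟩
    simpa [Qz_I3 h3] using h5.neg

variable (a) in
noncomputable def VS : Submodule (ZA ℝ) (ι → ZA ℝ) where
  carrier := {v | VV a v}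
  add_mem' := VV.add
  zero_mem' := VV.zero
  smul_mem' r _ h := h.smul r

lemma mem_VS [Fintype ι] (ha : Function.Injective a) (v : ι → ZA ℝ)
    (hv : ∀ i, v i ∈ JJ ℝ ^ (Fintype.card ι + 3)) : VV a v := by
  classical
  rw [← univ_sum_single v]
  apply (VS a).sum_mem
  intro i _
  have h1 : JJ ℝ ^ (Fintype.card ι + 3) ≤ JJ ℝ * KK a i (univ.erase i) := by
    refine le_trans (Ideal.pow_le_pow_right (m := (univ.erase i).card + 1 + 1) ?_) ?_
    · have := card_le_univ (univ.erase i); omega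
    · rw [pow_succ']
      exact Ideal.mul_mono_right (pow_le_KK ha i _ (notMem_erase i _))
  have h2 : JJ ℝ * KK a i (univ.erase i) ≤
      (VS a).comap (LinearMap.single (ZA ℝ) (fun _ => ZA ℝ) i) := by
    apply JJ_mul_le
    intro t s hs ε hε
    obtain ⟨w, k1, k2, k3⟩ := mem_KK.1 hs
    obtain ⟨ε₀, hε₀, k4⟩ := exists_Ng w
    obtain ⟨n, hn⟩ := exists_nat_gt (2 * ε₀ / ε)
    have hn0 : (0 : ℝ) < n := lt_of_le_of_lt (by positivity) hn
    have ha : aug (∑ k ∈ range n, ee (k • t)) = n := by simp [aug_ee]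
    have hM : (∑ k ∈ range n, ee (k • t)) * (ee t - 1) = ee (n • t) - 1 := by
      clear hn hn0 ha
      induction n with
      | zero => simp [ee_zero]
      | succ n ih => rw [sum_range_succ, add_mul, ih, succ_nsmul, ee_add]; ring
    refine ⟨∑ k ∈ range n, ee (k • t), sum_mem (fun k _ => ee_mem _), by
      rw [ha]; exact_mod_cast hn0, mp (kapH d) (ee (n • t)) * w + -w,
      add_mem (Ideal.mul_mem_left _ _ k1) (neg_mem k1), fun j => ?_, ?_⟩
    · simp only [map_add, map_mul, map_neg, mp_kap, LinearMap.coe_single]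
      by_cases hj : j = i
      · subst hj
        rw [Pi.single_eq_same, ← mul_assoc, hM, k3]; ring
      · rw [Pi.single_eq_of_ne hj, k2 j (by simp [hj])]; ring
    · refine ((k4.kap (ee_mem (n • t))).add k4.neg).mono ?_
      rw [ha, aug_ee, Qz_I3 k1]
      rw [div_lt_iff₀ hε] at hn
      simp only [Int.cast_one, one_mul, Matrix.trace_zero, add_zero, Int.cast_natCast]
      linarith
  exact h2 (h1 (hv i))

lemma exists_fin {X : Type} (M : Multiset X) {m : ℕ} (h : M.card = m) :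
    ∃ l : Fin m → X, Multiset.map l univ.val = M := by
  induction M using Quotient.inductionOn with
  | h L =>
    obtain rfl : L.length = m := h
    exact ⟨L.get, by rw [Fin.univ_val_map, List.ofFn_get]; rfl⟩

lemma exists_perm {m : ℕ} {f g : Fin m → ℝ}
    (h : Multiset.map f univ.val = Multiset.map g univ.val) :
    ∃ σ : Equiv.Perm (Fin m), ∀ κ, f κ = g (σ κ) := by
  classical
  have key : ∀ (f : Fin m → ℝ) (c : ℝ), Fintype.card {k // f k = c} =
      (Multiset.map f univ.val).count c := by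
    intro f c
    rw [Fintype.card_subtype, Multiset.count_map, card_def, filter_val]
    congr 1
    exact Multiset.filter_congr (fun _ _ => eq_comm)
  have e : ∀ c, {k // f k = c} ≃ {k // g k = c} := fun c =>
    Fintype.equivOfCardEq (by rw [key, key, h])
  exact ⟨Equiv.ofFiberEquiv e, fun κ => (Equiv.ofFiberEquiv_map e κ).symm⟩

theorem bal_of_AJ [Fintype ι] [Nonempty ι] (ha : Function.Injective a) (h : AJ a 3) : Bal a := by
  intro ε hε
  obtain ⟨z, c, hc, h1, h2, h3⟩ := h.all (Fintype.card ι) (ε / 2) (half_pos hε)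
  obtain ⟨M, k1, k2, w, k3, k4, k5⟩ := mem_VS ha _ h1 (ε / 2 * c) (by positivity)
  obtain ⟨m, m1, m2, m3⟩ := (h3.kap k1).add k5.neg
  obtain ⟨Mm, rfl⟩ := exists_io m1
  obtain ⟨Mp, hp⟩ := exists_io m2
  have e1 : ∀ i, Mp.map (evH (a i)) = Mm.map (evH (a i)) := by
    intro i
    apply io_inj
    rw [← mp_io, ← mp_io, hp]
    simp [mp_kap, k4]
  have e2 : Mp.card = Mm.card := by
    simpa using congrArg Multiset.card (e1 (Classical.arbitrary ι))
  obtain ⟨n, hn⟩ : ∃ n, Mm.card = n := ⟨_, rfl⟩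
  obtain ⟨l, rfl⟩ := exists_fin Mp (e2.trans hn)
  obtain ⟨l', rfl⟩ := exists_fin Mm hn
  have e3 : ∀ l : Fin n → HH d, Qz (io (Multiset.map l univ.val)) = ∑ κ, QQ (l κ) := by
    intro l
    rw [io, map_multiset_sum, Multiset.map_map, Multiset.map_map]
    simp only [Function.comp_def, Qz_ee]
    rfl
  have hM : (0 : ℝ) < aug M := by exact_mod_cast k2
  refine ⟨_, l, l', aug M * c, by positivity, fun i => exists_perm
    (f := fun κ => ev (a i) (l κ)) (g := fun κ => ev (a i) (l' κ)) ?_, ?_, ?_⟩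
  · have := e1 i
    rw [Multiset.map_map, Multiset.map_map] at this
    exact this
  · rw [← e3, ← e3, hp, map_add, map_add, map_neg, Qz_I3 k3, Qz_kap, h2, smul_smul]
    abel
  · rw [← e3]
    refine m3.trans (le_of_eq ?_)
    rw [Qz_I3 k3, Matrix.trace_zero]
    ring

end Vale.Agent.P058
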