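import Mathlib

namespace Vale.Agent.P058

open scoped TensorProduct

/-- Euclidean space `ℝ^n`. -/
abbrev E (n : ℕ) : Type := EuclideanSpace ℝ (Fin n)

/-- `f` preserves all pairwise distances of points of `A` (so `f '' A` is congruent to `A`). -/
def IsCopyMap {d D : ℕ} (A : Finset (E d)) (f : E d → E D) : Prop :=
  ∀ x ∈ A, ∀ y ∈ A, dist (f x) (f y) = dist x y

/-- `A` is Ramsey. -/
def IsRamsey {d : ℕ} (A : Finset (E d)) : Prop :=
  ∀ r : ℕ, 2 ≤ r → ∃ D : ℕ, 1 ≤ D ∧ ∀ c : E D → Fin r,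
    ∃ f : E d → E D, IsCopyMap A f ∧ ∃ k : Fin r, ∀ x ∈ A, c (f x) = k

/-- The isometries of `ℝ^n` mapping `X` onto itself act transitively on `X`. -/
def IsTransitive {n : ℕ} (X : Finset (E n)) : Prop :=
  ∀ x ∈ X, ∀ y ∈ X, ∃ g : E n ≃ᵢ E n, g '' (X : Set (E n)) = X ∧ g x = y

/-- `A` is congruent to a subset of a finite transitive set. -/
def IsSubtransitive {d : ℕ} (A : Finset (E d)) : Prop :=
  ∃ (n : ℕ) (X : Finset (E n)), IsTransitive X ∧
    ∃ f : E d → E n, IsCopyMap A f ∧ ∀ x ∈ A, f x ∈ X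

/-- Homogeneous coordinates `(1, x_1, ..., x_d)` of a point, indexed by `Option (Fin d)`. -/
def hom {d : ℕ} (x : E d) : Option (Fin d) → ℝ
  | none => 1
  | some k => x k

/-- The tensor criterion: a `(d+1) × (d+1)` matrix `P` over the ring `ℝ ⊗_ℚ ℝ` with
`(p ⊗ 1)ᵀ P (1 ⊗ p) = 0` for the homogeneous coordinate vector `p` of every point of `A`, whose
spatial block is sent to the identity matrix by the multiplication map `ℝ ⊗_ℚ ℝ → ℝ`. -/
def TensorCond {d : ℕ} (A : Finset (E d)) : Prop :=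
  ∃ P : Option (Fin d) → Option (Fin d) → ℝ ⊗[ℚ] ℝ,
    (∀ x ∈ A, ∑ α, ∑ β, (hom x α ⊗ₜ[ℚ] hom x β) * P α β = 0) ∧
    ∀ α β : Fin d, Algebra.TensorProduct.lmul' (S := ℝ) ℚ (P (some α) (some β)) =
      if α = β then 1 else 0

end Vale.Agent.P058
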