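import Vale.Agent.P058.Defs

/-! The group-theoretic part: positive words with weights. -/

namespace Vale.Agent.P058

open Finset

abbrev HH (d : ℕ) : Type := Option (Fin d) → ℝ
abbrev MM (d : ℕ) : Type := Matrix (Fin d) (Fin d) ℝ

variable {d : ℕ}

def ev (x : E d) (h : HH d) : ℝ := ∑ α, hom x α * h α

def QQ (h : HH d) : MM d := Matrix.of fun α β => h (some α) * h (some β)

lemma ev_eq (x : E d) (h : HH d) : ev x h = h none + ∑ k, x k * h (some k) := by
  simp [ev, Fintype.sum_option, hom]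

lemma QQ_smul (t : ℝ) (h : HH d) : QQ (t • h) = (t ^ 2) • QQ h := by
  ext α β; simp [QQ]; ring

lemma ev_smul (x : E d) (t : ℝ) (h : HH d) : ev x (t • h) = t * ev x h := by
  simp only [ev, Pi.smul_apply, smul_eq_mul, mul_sum]
  exact sum_congr rfl (fun _ _ => by ring)

lemma trace_QQ (h : HH d) : (QQ h).trace = ∑ k, h (some k) ^ 2 := by
  simp [Matrix.trace, QQ, sq]

variable {ι : Type} {G : Type} [Group G]

inductive Pos (a : ι → E d) (φ : ℝ → G) : (ι → G) → MM d → Prop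
  | const (g : G) : Pos a φ (fun _ => g) 0
  | col (h : HH d) : Pos a φ (fun i => φ (ev (a i) h)) (QQ h)
  | mul {x y : ι → G} {B C : MM d} : Pos a φ x B → Pos a φ y C → Pos a φ (x * y) (B + C)

variable {a : ι → E d} {φ : ℝ → G}

lemma Pos.cast {x y : ι → G} {B C : MM d} (h : Pos a φ x B) (h1 : x = y) (h2 : B = C) :
    Pos a φ y C := h1 ▸ h2 ▸ h

lemma Pos.one : Pos a φ 1 0 := Pos.const 1

lemma Pos.mulc {x : ι → G} {B : MM d} (h : Pos a φ x B) (g : G) :
    Pos a φ (fun i => x i * g) B := (h.mul (Pos.const g)).cast rfl (add_zero _)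

lemma Pos.cmul {x : ι → G} {B : MM d} (h : Pos a φ x B) (g : G) :
    Pos a φ (fun i => g * x i) B := ((Pos.const g).mul h).cast rfl (zero_add _)

lemma Pos.list {κ : Type} (l : List κ) (x : κ → ι → G) (B : κ → MM d)
    (h : ∀ k ∈ l, Pos a φ (x k) (B k)) : Pos a φ (l.map x).prod (l.map B).sum := by
  induction l with
  | nil => exact Pos.one
  | cons k l ih =>
    simp only [List.map_cons, List.prod_cons, List.sum_cons]
    exact (h k (by simp)).mul (ih (fun k hk => h k (by simp [hk])))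

lemma exists_pos_sum {κ : Type} (s : Finset κ) (h : κ → HH d) :
    ∃ y, Pos a φ y (∑ k ∈ s, QQ (h k)) := by
  refine ⟨_, (Pos.list s.toList (fun k i => φ (ev (a i) (h k))) (fun k => QQ (h k))
    (fun k _ => Pos.col _)).cast rfl ?_⟩
  exact sum_map_toList s _

lemma exists_pos_scalar {t : ℝ} (ht : 0 ≤ t) : ∃ y, Pos a φ y (t • (1 : MM d)) := by
  obtain ⟨y, hy⟩ := exists_pos_sum (a := a) (φ := φ) univ
    (fun k : Fin d => (Pi.single (some k) (Real.sqrt t) : HH d))
  refine ⟨y, hy.cast rfl ?_⟩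
  ext α β
  simp only [Matrix.sum_apply, QQ, Matrix.of_apply, Pi.single_apply, Option.some.injEq,
    Matrix.smul_apply, Matrix.one_apply, smul_eq_mul]
  rw [sum_eq_single α (fun k _ hk => by simp [Ne.symm hk]) (by simp)]
  by_cases h : α = β
  · simp [h, Real.mul_self_sqrt ht]
  · simp [h, Ne.symm h]

lemma Pos.pad {x : ι → G} {B : MM d} (h : Pos a φ x B) :
    ∃ y, Pos a φ y (B.trace • (1 : MM d) - B) := by
  induction h with
  | const g => exact ⟨1, Pos.one.cast rfl (by simp)⟩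
  | col h =>
    obtain ⟨y, hy⟩ := exists_pos_sum (a := a) (φ := φ) (univ : Finset (Fin d × Fin d))
      (fun k => (Real.sqrt (1 / 2)) • ((Pi.single (some k.2) (h (some k.1)) : HH d) -
        (Pi.single (some k.1) (h (some k.2)) : HH d)))
    refine ⟨y, hy.cast rfl ?_⟩
    simp only [QQ_smul, Real.sq_sqrt (show (0 : ℝ) ≤ 1 / 2 by norm_num)]
    ext α β
    rw [trace_QQ]
    simp only [Matrix.sum_apply, QQ, Matrix.of_apply, Pi.single_apply, Option.some.injEq,
      Matrix.smul_apply, Matrix.one_apply, smul_eq_mul, Pi.sub_apply, Matrix.sub_apply,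
      Fintype.sum_prod_type, sub_mul, mul_sub, sum_sub_distrib, ite_mul, mul_ite,
      zero_mul, mul_zero, sum_ite_eq, mem_univ, if_true]
    by_cases hαβ : α = β
    · subst hαβ
      simp [sq, ← mul_sum]
      ring
    · simp [hαβ]
      ring
  | mul _ _ ih1 ih2 =>
    obtain ⟨y1, h1⟩ := ih1
    obtain ⟨y2, h2⟩ := ih2
    refine ⟨_, (h1.mul h2).cast rfl ?_⟩
    rw [Matrix.trace_add, add_smul]; abel

variable (a φ) in
/-- elements realised on two coordinates at arbitrarily small weight -/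
def NN : Subgroup G where
  carrier := {g | ∀ i j, i ≠ j → ∀ ε : ℝ, 0 < ε → ∃ X B, Pos a φ X B ∧ B.trace ≤ ε ∧
    X j = 1 ∧ X i = g}
  one_mem' := fun i j _ ε hε => ⟨1, 0, Pos.one, by simpa using hε.le, rfl, rfl⟩
  mul_mem' := by
    intro g g' hg hg' i j hij ε hε
    obtain ⟨X, B, h1, h2, h3, h4⟩ := hg i j hij (ε / 2) (half_pos hε)
    obtain ⟨X', B', h1', h2', h3', h4'⟩ := hg' i j hij (ε / 2) (half_pos hε)
    refine ⟨_, _, h1.mul h1', ?_, by simp [h3, h3'], by simp [h4, h4']⟩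
    rw [Matrix.trace_add]; linarith
  inv_mem' := by
    intro g hg i j hij ε hε
    obtain ⟨X, B, h1, h2, h3, h4⟩ := hg j i hij.symm ε hε
    exact ⟨_, _, h1.mulc g⁻¹, h2, by simp [h4], by simp [h3]⟩

instance NN_normal : (NN a φ).Normal where
  conj_mem := by
    intro n hn g i j hij ε hε
    obtain ⟨X, B, h1, h2, h3, h4⟩ := hn i j hij ε hε
    exact ⟨_, _, (h1.cmul g).mulc g⁻¹, h2, by simp [h3], by simp [h4]⟩

lemma exists_col {x y : E d} (hxy : x ≠ y) : ∃ K : ℝ, 0 ≤ K ∧ ∀ s t : ℝ, ∃ h : HH d,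
    ev x h = s ∧ ev y h = t ∧ (QQ h).trace = K * (s - t) ^ 2 := by
  set S : ℝ := ∑ k, (x k - y k) ^ 2 with hS
  have hS0 : S ≠ 0 := by
    intro h
    apply hxy
    ext k
    have := (sum_eq_zero_iff_of_nonneg (fun k _ => sq_nonneg (x k - y k))).1 h k (mem_univ k)
    nlinarith
  refine ⟨1 / S, by positivity, fun s t => ?_⟩
  have hy : ∀ c : ℝ, ev y (fun o => o.elim (t - ∑ k, y k * (c * (x k - y k)))
      (fun k => c * (x k - y k))) = t := by
    intro c; rw [ev_eq]; simp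
  refine ⟨_, ?_, hy ((s - t) / S), ?_⟩
  · rw [ev_eq]
    simp only [Option.elim]
    have : ∑ k, x k * ((s - t) / S * (x k - y k)) - ∑ k, y k * ((s - t) / S * (x k - y k)) =
        (s - t) / S * S := by
      rw [hS, mul_sum, ← sum_sub_distrib]
      exact sum_congr rfl (fun _ _ => by ring)
    rw [div_mul_cancel₀ _ hS0] at this
    linarith
  · rw [trace_QQ]
    simp only [Option.elim, mul_pow, ← mul_sum, ← hS]
    field_simp

lemma phi_mem_NN (ha : Function.Injective a) (s t : ℝ) : φ s * (φ t)⁻¹ ∈ NN a φ := by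
  intro i j hij ε hε
  obtain ⟨K, hK, hcol⟩ := exists_col (ha.ne hij)
  have key : ∀ (δ : ℝ) (k : ℕ), ∃ X B, Pos a φ X B ∧ B.trace ≤ k * (K * δ ^ 2) ∧ X j = 1 ∧
      X i = φ s * (φ (s + k * δ))⁻¹ := by
    intro δ k
    induction k with
    | zero => exact ⟨1, 0, Pos.one, by simp, rfl, by simp⟩
    | succ k ih =>
      obtain ⟨X, B, h1, h2, h3, h4⟩ := ih
      obtain ⟨h, e1, e2, e3⟩ := hcol (s + k * δ) (s + (k + 1 : ℕ) * δ)
      refine ⟨_, _, h1.mul ((Pos.col h).mulc (φ (s + (k + 1 : ℕ) * δ))⁻¹), ?_, ?_, ?_⟩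
      · rw [Matrix.trace_add, e3]
        push_cast
        nlinarith
      · simp [h3, e2]
      · simp [h4, e1]
  obtain ⟨n, hn⟩ := exists_nat_gt (K * (t - s) ^ 2 / ε)
  have hn0 : (0 : ℝ) < n := lt_of_le_of_lt (by positivity) hn
  obtain ⟨X, B, h1, h2, h3, h4⟩ := key ((t - s) / n) n
  refine ⟨X, B, h1, h2.trans ?_, h3, ?_⟩
  · rw [div_lt_iff₀ hε] at hn
    have : (n : ℝ) * (K * ((t - s) / n) ^ 2) = K * (t - s) ^ 2 / n := by field_simp
    rw [this, div_le_iff₀ hn0]
    linarith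
  · rw [h4]; congr 3; field_simp; ring

lemma Pos.mem_NN (ha : Function.Injective a) {x : ι → G} {B : MM d} (h : Pos a φ x B) (i j : ι) :
    (x i)⁻¹ * x j ∈ NN a φ := by
  induction h with
  | const g => simp
  | col h =>
    have := (NN_normal (a := a) (φ := φ)).conj_mem _ (phi_mem_NN ha (ev (a j) h) (ev (a i) h))
      (φ (ev (a i) h))⁻¹
    simpa [mul_assoc] using this
  | @mul x y _ _ _ _ ih1 ih2 =>
    have := (NN a φ).mul_mem ((NN_normal (a := a) (φ := φ)).conj_mem _ ih1 (y i)⁻¹) ih2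
    simpa [mul_assoc] using this

variable (a φ) in
/-- differences at `i` of light pairs agreeing on `J` -/
def CC (i : ι) (J : Set ι) : Subgroup G :=
  Subgroup.normalCore
  { carrier := {g | ∀ c : G, ∀ ε : ℝ, 0 < ε → ∃ P P' B, Pos a φ P B ∧ Pos a φ P' B ∧
      B.trace ≤ ε ∧ (∀ j ∈ J, P j = P' j) ∧ (P i)⁻¹ * P' i = c * g * c⁻¹}
    one_mem' := fun c ε hε => ⟨1, 1, 0, Pos.one, Pos.one, by simpa using hε.le, fun _ _ => rfl,
      by simp⟩
    mul_mem' := by
      intro g g' hg hg' c ε hε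
      obtain ⟨R, R', C, k1, k2, k3, k4, k5⟩ := hg' c (ε / 2) (half_pos hε)
      obtain ⟨P, P', B, h1, h2, h3, h4, h5⟩ := hg (R i * c) (ε / 2) (half_pos hε)
      refine ⟨_, _, _, h1.mul k1, h2.mul k2, ?_, fun j hj => by simp [h4 j hj, k4 j hj], ?_⟩
      · rw [Matrix.trace_add]; linarith
      · have e1 : P' i = P i * (R i * c * g * (R i * c)⁻¹) := by rw [← h5]; simp
        have e2 : R' i = R i * (c * g' * c⁻¹) := by rw [← k5]; simp
        simp only [Pi.mul_apply, e1, e2]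
        group
    inv_mem' := by
      intro g hg c ε hε
      obtain ⟨P, P', B, h1, h2, h3, h4, h5⟩ := hg c ε hε
      refine ⟨P', P, B, h2, h1, h3, fun j hj => (h4 j hj).symm, ?_⟩
      have e1 : P' i = P i * (c * g * c⁻¹) := by rw [← h5]; simp
      rw [e1]; group }

instance CC_normal (i : ι) (J : Set ι) : (CC a φ i J).Normal := Subgroup.normalCore_normal _

lemma mem_CC {i : ι} {J : Set ι} {g : G} : g ∈ CC a φ i J ↔ ∀ c : G, ∀ ε : ℝ, 0 < ε →
    ∃ P P' B, Pos a φ P B ∧ Pos a φ P' B ∧ B.trace ≤ ε ∧ (∀ j ∈ J, P j = P' j) ∧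
      (P i)⁻¹ * P' i = c * g * c⁻¹ := by
  constructor
  · intro h c
    simpa using h c 1
  · intro h b c
    have := h (c * b)
    simpa [mul_assoc] using this

variable (a φ) in
def Gam : ℕ → Subgroup G
  | 0 => NN a φ
  | k + 1 => ⁅Gam k, NN a φ⁆

instance Gam_normal (k : ℕ) : (Gam a φ k).Normal := by
  induction k with
  | zero => exact NN_normal
  | succ k ih => exact Subgroup.commutator_normal _ _

lemma Gam_succ_le (k : ℕ) : Gam a φ (k + 1) ≤ Gam a φ k := Subgroup.commutator_le_left _ _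

lemma Gam_anti {k l : ℕ} (h : k ≤ l) : Gam a φ l ≤ Gam a φ k :=
  antitone_nat_of_succ_le (f := Gam a φ) Gam_succ_le h

lemma comm_CC (ha : Function.Injective a) {i j : ι} (hij : i ≠ j) (J : Set ι) :
    ⁅CC a φ i J, NN a φ⁆ ≤ CC a φ i (insert j J) := by
  rw [Subgroup.commutator_le]
  intro g hg y hy
  rw [mem_CC]
  intro c ε hε
  obtain ⟨P, P', B, h1, h2, h3, h4, h5⟩ := mem_CC.1 ((CC a φ i J).inv_mem hg) c (ε / 3)
    (by positivity)
  have hy' : c * y⁻¹ * c⁻¹ * ((P i)⁻¹ * P j) ∈ NN a φ :=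
    (NN a φ).mul_mem (NN_normal.conj_mem _ ((NN a φ).inv_mem hy) c) (h1.mem_NN ha i j)
  obtain ⟨X, C, k1, k2, k3, k4⟩ := hy' i j hij (ε / 3) (by positivity)
  have k5 := k1.mulc (P j)⁻¹
  refine ⟨_, _, _, (h1.mul k5).mul h2, ((h2.mul k5).mul h1), ?_, ?_, ?_⟩
  · rw [Matrix.trace_add, Matrix.trace_add]; linarith
  · rintro k (rfl | hk)
    · simp [k3]
    · simp [h4 k hk]
  · have e1 : P' i = P i * (c * g⁻¹ * c⁻¹) := by rw [← h5]; simp
    simp only [Pi.mul_apply, e1, k4, commutatorElement_def]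
    group

lemma Gam_le_CC (ha : Function.Injective a) (i : ι) (J : Finset ι) (hi : i ∉ J) :
    Gam a φ J.card ≤ CC a φ i J := by
  classical
  induction J using Finset.induction_on with
  | empty =>
    intro g _
    rw [mem_CC]
    intro c ε hε
    exact ⟨1, _, 0, Pos.one, Pos.const (c * g * c⁻¹), by simpa using hε.le, by simp, by simp⟩
  | insert j J hj ih =>
    rw [card_insert_of_notMem hj, coe_insert]
    rw [mem_insert, not_or] at hi
    exact (Subgroup.commutator_mono (ih hi.2) le_rfl).trans (comm_CC ha hi.1 _)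

lemma light_fraction [Fintype ι] (ha : Function.Injective a) (D : ι → G)
    (hD : ∀ i, D i ∈ Gam a φ (Fintype.card ι)) {ε : ℝ} (hε : 0 < ε) :
    ∃ P B, Pos a φ P B ∧ Pos a φ (P * D) B ∧ B.trace ≤ ε := by
  classical
  have key : ∀ I : Finset ι, ∀ ε : ℝ, 0 < ε → ∃ P B, Pos a φ P B ∧
      Pos a φ (P * fun i => if i ∈ I then D i else 1) B ∧ B.trace ≤ ε := by
    intro I
    induction I using Finset.induction_on with
    | empty => exact fun ε hε => ⟨1, 0, Pos.one, Pos.one.cast (by ext; simp) rfl, by simpa using hε.le⟩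
    | insert i I hi ih =>
      intro ε hε
      obtain ⟨P, B, h1, h2, h3⟩ := ih (ε / 2) (half_pos hε)
      have h4 : D i ∈ CC a φ i (univ.erase i : Finset ι) :=
        Gam_le_CC ha i _ (notMem_erase i _) (Gam_anti (card_le_univ _) (hD i))
      obtain ⟨R, R', C, k1, k2, k3, k4, k5⟩ := mem_CC.1 h4 (P i) (ε / 2) (half_pos hε)
      refine ⟨_, _, k1.mul h1, (k2.mul h2).cast ?_ rfl, ?_⟩
      · ext k
        by_cases hk : k = i
        · subst hk
          have e1 : R' k = R k * (P k * D k * (P k)⁻¹) := by rw [← k5]; simp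
          simp [e1, hi, mul_assoc]
        · simp [hk, k4 k (by simp [hk]), mul_assoc]
      · rw [Matrix.trace_add]; linarith
  obtain ⟨P, B, h1, h2, h3⟩ := key univ ε hε
  exact ⟨P, B, h1, h2.cast (by ext; simp) rfl, h3⟩

lemma sym_word (K : Type) [Fintype K] [DecidableEq K] (k : ℕ) : ∃ (w : List K) (μ : ℕ), 0 < μ ∧
    (∀ f : K → MM d, (w.map f).sum = μ • ∑ κ, f κ) ∧
    ∀ x : K → G, (∀ κ, x κ ∈ NN a φ) → ∀ σ : Equiv.Perm K,
      ((w.map x).prod)⁻¹ * (w.map (x ∘ σ)).prod ∈ Gam a φ k := by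
  have hN : ∀ (w : List K) (x : K → G), (∀ κ, x κ ∈ NN a φ) → (w.map x).prod ∈ NN a φ := by
    intro w x hx
    apply Subgroup.list_prod_mem
    intro y hy
    obtain ⟨κ, -, rfl⟩ := List.mem_map.1 hy
    exact hx κ
  induction k with
  | zero =>
    refine ⟨univ.toList, 1, one_pos, fun f => by simp, fun x hx σ => ?_⟩
    exact (NN a φ).mul_mem ((NN a φ).inv_mem (hN _ _ hx)) (hN _ _ (fun κ => hx _))
  | succ k ih =>
    obtain ⟨w, μ, hμ, h1, h2⟩ := ih
    set L : List (Equiv.Perm K) := univ.toList with hL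
    refine ⟨(L.map (fun τ : Equiv.Perm K => w.map τ)).flatten, Fintype.card (Equiv.Perm K) * μ,
      Nat.mul_pos Fintype.card_pos hμ, fun f => ?_, fun x hx σ => ?_⟩
    · rw [List.map_flatten, List.sum_flatten, List.map_map, List.map_map, hL, sum_map_toList]
      simp only [Function.comp_apply, List.map_map, h1]
      rw [sum_congr rfl (g := fun _ => μ • ∑ κ, f κ)
        (fun τ _ => by rw [Equiv.sum_comp τ f]), sum_const, card_univ, mul_smul]
    · set y : Equiv.Perm K → G := fun τ => (w.map (x ∘ τ)).prod with hy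
      have e1 : ∀ z : K → G, ((L.map (fun τ : Equiv.Perm K => w.map τ)).flatten.map z).prod =
          (L.map (fun τ : Equiv.Perm K => (w.map (z ∘ τ)).prod)).prod := by
        intro z
        rw [List.map_flatten, List.prod_flatten, List.map_map, List.map_map]
        congr 1
        apply List.map_congr_left
        intro τ _
        simp
      rw [e1, e1, ← QuotientGroup.eq, ← QuotientGroup.mk'_apply, ← QuotientGroup.mk'_apply,
        map_list_prod, map_list_prod]
      have e2 : L.map (fun τ : Equiv.Perm K => (w.map ((x ∘ σ) ∘ τ)).prod) =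
          (L.map (fun τ => σ * τ)).map y := by
        rw [List.map_map]; rfl
      have e3 : (L.map (fun τ => σ * τ)).Perm L := by
        rw [← Multiset.coe_eq_coe, ← Multiset.map_coe, hL, coe_toList]
        exact Multiset.map_univ_val_equiv (Equiv.mulLeft σ)
      rw [e2]
      refine (((e3.map y).map _).symm.prod_eq' ?_)
      have hc : ∀ τ τ' : Equiv.Perm K, Commute (QuotientGroup.mk' (Gam a φ (k + 1)) (y τ))
          (QuotientGroup.mk' (Gam a φ (k + 1)) (y τ')) := by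
        intro τ τ'
        have h3 := h2 (x ∘ τ) (fun κ => hx _) (τ⁻¹ * τ')
        have h4 : (x ∘ τ) ∘ (τ⁻¹ * τ' : Equiv.Perm K) = x ∘ τ' := by ext κ; simp
        rw [h4] at h3
        have h5 : y τ' = y τ * ((y τ)⁻¹ * y τ') := by simp
        rw [h5, map_mul]
        refine (Commute.refl _).mul_right (Commute.symm ?_)
        rw [← commutatorElement_eq_one_iff_commute, ← map_commutatorElement,
          QuotientGroup.mk'_apply, QuotientGroup.eq_one_iff]
        exact Subgroup.commutator_mem_commutator h3 (hN _ _ (fun κ => hx _))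
      rw [List.pairwise_map, List.pairwise_map]
      exact List.pairwise_of_forall (fun _ _ => hc _ _)

variable (a) in
/-- balanced families of affine functions with light negative part -/
def Bal : Prop := ∀ ε : ℝ, 0 < ε → ∃ (m : ℕ) (l l' : Fin m → HH d) (c : ℝ), 0 < c ∧
  (∀ i, ∃ σ : Equiv.Perm (Fin m), ∀ κ, ev (a i) (l κ) = ev (a i) (l' (σ κ))) ∧
  ∑ κ, QQ (l κ) = ∑ κ, QQ (l' κ) + c • (1 : MM d) ∧ (∑ κ, QQ (l' κ)).trace ≤ ε * c

lemma two_weights [Fintype ι] (ha : Function.Injective a) (hB : Bal a) {β c : ℝ} (hβ : 0 < β)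
    (hc : 0 < c) : ∃ e, Pos a φ e (β • (1 : MM d)) ∧ Pos a φ e ((β + c) • (1 : MM d)) := by
  obtain ⟨m, l, l', c₀, hc₀, h1, h2, h3⟩ := hB (β / (2 * c)) (by positivity)
  obtain ⟨w, μ, hμ, k1, k2⟩ := sym_word (a := a) (φ := φ) (Fin m) (Fintype.card ι)
  have hμ' : (0 : ℝ) < μ := by exact_mod_cast hμ
  set t : ℝ := Real.sqrt (c / (μ * c₀)) with ht
  have ht2 : t ^ 2 = c / (μ * c₀) := Real.sq_sqrt (by positivity)
  have hW : ∀ l : Fin m → HH d, Pos a φ (fun i => (w.map (fun κ => φ (t * ev (a i) (l κ)) *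
      (φ 0)⁻¹)).prod) ((μ * t ^ 2) • ∑ κ, QQ (l κ)) := by
    intro l
    refine (Pos.list w (fun κ i => φ (ev (a i) (t • l κ)) * (φ 0)⁻¹) (fun κ => QQ (t • l κ))
      (fun κ _ => (Pos.col _).mulc _)).cast ?_ ?_
    · ext i
      rw [Pi.list_prod_apply, List.map_map]
      simp only [ev_smul]
      rfl
    · rw [k1]
      simp only [QQ_smul, ← smul_sum]
      rw [mul_smul, Nat.cast_smul_eq_nsmul]
  set W : ι → G := fun i => (w.map (fun κ => φ (t * ev (a i) (l κ)) * (φ 0)⁻¹)).prod with hWd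
  set P₀ : ι → G := fun i => (w.map (fun κ => φ (t * ev (a i) (l' κ)) * (φ 0)⁻¹)).prod with hP₀
  have hD : ∀ i, (P₀ * W⁻¹) i ∈ Gam a φ (Fintype.card ι) := by
    intro i
    obtain ⟨σ, hσ⟩ := h1 i
    have h4 := k2 (fun κ => φ (t * ev (a i) (l' κ)) * (φ 0)⁻¹) (fun κ => phi_mem_NN ha _ _) σ
    have h5 : (fun κ => φ (t * ev (a i) (l' κ)) * (φ 0)⁻¹) ∘ σ =
        fun κ => φ (t * ev (a i) (l κ)) * (φ 0)⁻¹ := by
      ext κ; simp [hσ]
    rw [h5] at h4
    change (P₀ i)⁻¹ * W i ∈ _ at h4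
    have h6 := (Gam_normal _).conj_mem _ ((Gam a φ _).inv_mem h4) (W i)
    simpa [mul_assoc] using h6
  obtain ⟨R, B, r1, r2, r3⟩ := light_fraction ha _ hD (half_pos hβ)
  have p1 := r1.mul (hW l')
  have p2 := (r2.mul (hW l)).cast (y := R * P₀)
    (C := (B + (μ * t ^ 2) • ∑ κ, QQ (l' κ)) + c • (1 : MM d)) (by ext i; simp [W, mul_assoc]) (by
      rw [h2, smul_add, smul_smul, ht2, add_assoc]
      congr 3
      field_simp)
  set B' := B + (μ * t ^ 2) • ∑ κ, QQ (l' κ) with hB'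
  have hB'tr : B'.trace ≤ β := by
    rw [hB', Matrix.trace_add, Matrix.trace_smul, smul_eq_mul, ht2]
    have : (μ * (c / (μ * c₀))) * (∑ κ, QQ (l' κ)).trace ≤ (μ * (c / (μ * c₀))) *
        (β / (2 * c) * c₀) := by gcongr
    have e : (μ * (c / (μ * c₀))) * (β / (2 * c) * c₀) = β / 2 := by field_simp
    linarith
  obtain ⟨y, hy⟩ := p1.pad
  obtain ⟨z, hz⟩ := exists_pos_scalar (a := a) (φ := φ) (sub_nonneg.2 hB'tr)
  refine ⟨_, ((p1.mul hy).mul hz).cast rfl ?_, ((p2.mul hy).mul hz).cast rfl ?_⟩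
  · rw [sub_smul]; abel
  · rw [sub_smul, add_smul]; abel

lemma many_weights [Fintype ι] (ha : Function.Injective a) (hB : Bal a) (n : ℕ) :
    ∃ e, ∀ j : ℕ, 1 ≤ j → j ≤ n → Pos a φ e ((1 / j : ℝ) • (1 : MM d)) := by
  have key : ∀ (β : ℝ) (c : ℕ → ℝ) (k : ℕ), 0 < β → (∀ j, 1 ≤ j → j ≤ k → 0 < c j) →
      ∃ e, Pos a φ e ((k * β) • (1 : MM d)) ∧
        ∀ j, 1 ≤ j → j ≤ k → Pos a φ e ((k * β + c j) • (1 : MM d)) := by
    intro β c k hβ
    induction k with
    | zero => exact fun _ => ⟨1, Pos.one.cast rfl (by simp), fun j h1 h2 => by omega⟩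
    | succ k ih =>
      intro hc
      obtain ⟨e, h1, h2⟩ := ih (fun j h1 h2 => hc j h1 (by omega))
      obtain ⟨e', h3, h4⟩ := two_weights (φ := φ) ha hB hβ (hc (k + 1) (by omega) le_rfl)
      refine ⟨e * e', (h1.mul h3).cast rfl ?_, fun j hj1 hj2 => ?_⟩
      · rw [← add_smul]; congr 1; push_cast; ring
      · rcases hj2.eq_or_lt with rfl | hj
        · refine (h1.mul h4).cast rfl ?_
          rw [← add_smul]; congr 1; push_cast; ring
        · refine ((h2 j hj1 (by omega)).mul h3).cast rfl ?_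
          rw [← add_smul]; congr 1; push_cast; ring
  obtain ⟨e, -, h⟩ := key (1 / (n + 1) ^ 2) (fun j => 1 / j - n * (1 / (n + 1) ^ 2)) n
    (by positivity) (by
      intro j h1 h2
      have h3 : (0 : ℝ) < j := by exact_mod_cast h1
      have h4 : (j : ℝ) ≤ n := by exact_mod_cast h2
      rw [sub_pos, mul_one_div, div_lt_div_iff₀ (by positivity) h3]
      nlinarith)
  exact ⟨e, fun j h1 h2 => (h j h1 h2).cast rfl (by congr 1; ring)⟩

theorem exists_mono [Fintype ι] (ha : Function.Injective a) (hB : Bal a) {κ : Type} [Finite κ]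
    (χ : G → κ) : ∃ x, Pos a φ x 1 ∧ ∃ k, ∀ i, χ (x i) = k := by
  classical
  obtain ⟨δ, _, hδ⟩ := Combinatorics.Line.exists_mono_in_high_dimension ι κ
  obtain ⟨e, he⟩ := many_weights (φ := φ) ha hB (Fintype.card δ)
  obtain ⟨l, k, hl⟩ := hδ (fun v => χ ((univ.toList.map (fun p => e (v p))).prod))
  set S : Finset δ := univ.filter (fun p => l.idxFun p = none) with hS
  have hS1 : 1 ≤ S.card := card_pos.2 ⟨l.proper.choose, by simp [hS, l.proper.choose_spec]⟩
  have h1 := he S.card hS1 (card_le_univ S)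
  have h2 := Pos.list (a := a) (φ := φ) (univ : Finset δ).toList (fun p i => e (l i p))
    (fun p => if l.idxFun p = none then (1 / S.card : ℝ) • (1 : MM d) else 0) (by
      intro p _
      cases hp : l.idxFun p with
      | none => simpa [hp] using h1
      | some b => simpa [hp] using Pos.const (e b))
  refine ⟨_, h2.cast rfl ?_, k, fun i => ?_⟩
  · rw [sum_map_toList, ← sum_filter, sum_const, ← hS, ← Nat.cast_smul_eq_nsmul ℝ, smul_smul]
    have : (S.card : ℝ) ≠ 0 := by exact_mod_cast (by omega : S.card ≠ 0)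
    rw [mul_one_div_cancel this, one_smul]
  · rw [← hl i, Pi.list_prod_apply, List.map_map]
    rfl

end Vale.Agent.P058
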