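import Vale.Agent.P058.Tens

/-! Necessity of the tensor criterion; subtransitive sets; the kite. -/

namespace Vale.Agent.P058

open Finset
open scoped TensorProduct InnerProductSpace

variable {d : ℕ}

lemma exists_M {ι κ : Type} [Fintype ι] [Fintype κ] (i₀ : ι) (a : ι → E d)
    (F : ι → EuclideanSpace ℝ κ) (hF : ∀ i j, dist (F i) (F j) = dist (a i) (a j)) :
    ∃ M : κ ⊕ Fin d → HH d, (∀ i k, ev (a i) (M (Sum.inl k)) = F i k) ∧
      (∀ i k, ev (a i) (M (Sum.inr k)) = 0) ∧ ∑ k, QQ (M k) = 1 := by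
  classical
  set T1 := Fintype.linearCombination ℝ (fun i => a i - a i₀) with hT1
  set T2 := Fintype.linearCombination ℝ (fun i => F i - F i₀) with hT2
  have hg : ∀ i j, ⟪F i - F i₀, F j - F i₀⟫_ℝ = ⟪a i - a i₀, a j - a i₀⟫_ℝ := by
    intro i j
    rw [real_inner_eq_norm_mul_self_add_norm_mul_self_sub_norm_sub_mul_self_div_two,
      real_inner_eq_norm_mul_self_add_norm_mul_self_sub_norm_sub_mul_self_div_two]
    simp only [sub_sub_sub_cancel_right, ← dist_eq_norm, hF]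
  have hn : ∀ c, ‖T2 c‖ = ‖T1 c‖ := by
    intro c
    rw [norm_eq_sqrt_real_inner, norm_eq_sqrt_real_inner]
    simp only [hT1, hT2, Fintype.linearCombination_apply, sum_inner, inner_sum,
      real_inner_smul_left, real_inner_smul_right, hg]
  let V := LinearMap.range T1
  obtain ⟨g, hg2⟩ : ∃ g : V →ₗ[ℝ] (ι → ℝ), ∀ v, T1 (g v) = v := by
    obtain ⟨g, hg'⟩ := T1.rangeRestrict.exists_rightInverse_of_surjective T1.range_rangeRestrict
    exact ⟨g, fun v => congrArg Subtype.val (LinearMap.congr_fun hg' v)⟩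
  let U0 : V →ₗᵢ[ℝ] EuclideanSpace ℝ κ :=
    ⟨T2 ∘ₗ g, fun v => by rw [LinearMap.comp_apply, hn, hg2]; rfl⟩
  have hU0 : ∀ c, U0 ⟨T1 c, c, rfl⟩ = T2 c := by
    intro c
    have h1 := hn (g ⟨T1 c, c, rfl⟩ - c)
    rw [map_sub T1, hg2, sub_self, norm_zero, norm_eq_zero, map_sub, sub_eq_zero] at h1
    exact h1
  set U : E d →ₗ[ℝ] EuclideanSpace ℝ κ :=
    U0.toLinearMap ∘ₗ (V.orthogonalProjectionOnto : E d →L[ℝ] V).toLinearMap with hU
  set N : E d →ₗ[ℝ] E d := LinearMap.id - (V.starProjection : E d →L[ℝ] E d).toLinearMap with hN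
  have hin : ∀ v w, ⟪U v, U w⟫_ℝ + ⟪N v, N w⟫_ℝ = ⟪v, w⟫_ℝ := by
    intro v w
    have h1 : ⟪U v, U w⟫_ℝ = ⟪V.starProjection v, V.starProjection w⟫_ℝ :=
      U0.inner_map_map _ _
    have h2 : ⟪V.starProjection v, w - V.starProjection w⟫_ℝ = 0 :=
      V.sub_starProjection_mem_orthogonal w _ (V.starProjection_apply_mem v)
    have h3 : ⟪V.starProjection w, v - V.starProjection v⟫_ℝ = 0 :=
      V.sub_starProjection_mem_orthogonal v _ (V.starProjection_apply_mem w)
    have h4 : ∀ v, N v = v - V.starProjection v := fun v => rfl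
    rw [real_inner_comm] at h3
    rw [h1, h4, h4]
    simp only [inner_sub_left, inner_sub_right] at h2 h3 ⊢
    linarith
  have hd : ∀ i, a i - a i₀ = T1 (Pi.single i 1) := by
    intro i; simp [hT1, Fintype.linearCombination_apply_single]
  have hUa : ∀ i, U (a i) - U (a i₀) = F i - F i₀ := by
    intro i
    rw [← map_sub, hd]
    have : V.orthogonalProjectionOnto (T1 (Pi.single i 1)) = ⟨T1 (Pi.single i 1), _, rfl⟩ :=
      V.orthogonalProjectionOnto_mem_subspace_eq_self ⟨T1 (Pi.single i 1), _, rfl⟩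
    change U0 (V.orthogonalProjectionOnto _) = _
    rw [this, hU0]
    simp [hT2, Fintype.linearCombination_apply_single]
  have hNa : ∀ i, N (a i) - N (a i₀) = 0 := by
    intro i
    rw [← map_sub, hd]
    change T1 _ - V.starProjection _ = 0
    rw [V.starProjection_eq_self_iff.2 ⟨_, rfl⟩, sub_self]
  have hlin : ∀ {μ : Type} [Fintype μ] (L : E d →ₗ[ℝ] EuclideanSpace ℝ μ) (x : E d) (k : μ),
      ∑ α, x α * L (EuclideanSpace.single α 1) k = L x k := by
    intro μ _ L x k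
    conv_rhs => rw [← (EuclideanSpace.basisFun (Fin d) ℝ).sum_repr x]
    simp
  refine ⟨fun k o => Sum.elim
    (fun k => o.elim (F i₀ k - U (a i₀) k) (fun α => U (EuclideanSpace.single α 1) k))
    (fun k => o.elim (-N (a i₀) k) (fun α => N (EuclideanSpace.single α 1) k)) k, ?_, ?_, ?_⟩
  · intro i k
    rw [ev_eq]
    simp only [Sum.elim_inl, Option.elim, hlin]
    have := congrArg (fun v => v k) (hUa i)
    simp only [PiLp.sub_apply] at this
    linarith
  · intro i k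
    rw [ev_eq]
    simp only [Sum.elim_inr, Option.elim, hlin]
    have := congrArg (fun v => v k) (hNa i)
    simp only [PiLp.sub_apply, PiLp.zero_apply] at this
    linarith
  · ext α β
    have := hin (EuclideanSpace.single β 1) (EuclideanSpace.single α 1)
    rw [EuclideanSpace.inner_single_left, PiLp.inner_apply, PiLp.inner_apply] at this
    simp only [Matrix.sum_apply, QQ, Matrix.of_apply, Fintype.sum_sum_type, Sum.elim_inl,
      Sum.elim_inr, Option.elim, Matrix.one_apply]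
    simpa [Pi.single_apply, eq_comm] using this

lemma exists_G {ι κ : Type} [Fintype ι] [Fintype κ] (i₀ : ι) (a : ι → E d)
    (F : ι → EuclideanSpace ℝ κ) (hF : ∀ i j, dist (F i) (F j) = dist (a i) (a j)) :
    ∃ G : Option (Fin d) → Option (Fin d) → TT,
      (∀ i, ∑ α, ∑ β, (hom (a i) α ⊗ₜ[ℚ] hom (a i) β) * G α β = ∑ k, F i k ⊗ₜ[ℚ] F i k) ∧
      ∀ α β : Fin d, mm (G (some α) (some β)) = if α = β then 1 else 0 := by
  obtain ⟨M, h1, h2, h3⟩ := exists_M i₀ a F hF
  refine ⟨fun α β => ∑ k, M k α ⊗ₜ[ℚ] M k β, fun i => ?_, fun α β => ?_⟩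
  · have : ∑ k, F i k ⊗ₜ[ℚ] F i k = ∑ k, ev (a i) (M k) ⊗ₜ[ℚ] ev (a i) (M k) := by
      simp [Fintype.sum_sum_type, h1, h2]
    rw [this]
    simp only [ev, TensorProduct.sum_tmul, TensorProduct.tmul_sum, mul_sum,
      Algebra.TensorProduct.tmul_mul_tmul]
    rw [sum_comm (s := (univ : Finset (κ ⊕ Fin d)))]
    rw [sum_comm]
    refine sum_congr rfl (fun β _ => ?_)
    rw [sum_comm]
  · have := congrFun (congrFun h3 α) β
    simp only [Matrix.sum_apply, QQ, Matrix.of_apply, Matrix.one_apply] at this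
    simp only [map_sum, mm_tmul, this]

lemma ev00 (x : E d) (τ : TT) : ∑ α, ∑ β, (hom x α ⊗ₜ[ℚ] hom x β) *
    (if α = none ∧ β = none then τ else 0) = τ := by
  simp [Fintype.sum_option, hom, ← Algebra.TensorProduct.one_def]

theorem tensor_of_ramsey {A : Finset (E d)} (hA : A.Nonempty) (h : IsRamsey A) :
    TensorCond A := by
  classical
  by_contra hcon
  obtain ⟨x₀, hx₀⟩ := hA
  let evL : (Option (Fin d) → Option (Fin d) → TT) →ₗ[ℚ] (A → TT) :=
    { toFun := fun G i => ∑ α, ∑ β, (hom (i : E d) α ⊗ₜ[ℚ] hom (i : E d) β) * G α β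
      map_add' := fun G G' => by ext i; simp [mul_add, sum_add_distrib]
      map_smul' := fun r G => by ext i; simp [smul_sum] }
  let Kf : Submodule ℚ (Option (Fin d) → Option (Fin d) → TT) :=
    { carrier := {G | ∀ α β : Fin d, mm (G (some α) (some β)) = 0}
      add_mem' := fun h1 h2 α β => by simp [h1 α β, h2 α β]
      zero_mem' := fun α β => by simp
      smul_mem' := fun r G h α β => by simp [h α β] }
  let G0 : Option (Fin d) → Option (Fin d) → TT := fun α β => if α = β then 1 else 0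
  have hG0 : ∀ α β : Fin d, mm (G0 (some α) (some β)) = if α = β then 1 else 0 := by
    intro α β
    by_cases h : α = β <;> simp [G0, h]
  have h1 : evL G0 ∉ Kf.map evL := by
    rintro ⟨G, hG, hG'⟩
    refine hcon ⟨G0 - G, fun x hx => ?_, fun α β => ?_⟩
    · have : evL (G0 - G) = 0 := by rw [map_sub, hG', sub_self]
      exact congrFun this ⟨x, hx⟩
    · change mm _ = _
      simp [hG α β, hG0]
  obtain ⟨l0, hl1, hl2⟩ := Submodule.exists_le_ker_of_notMem h1
  set l : (A → TT) →ₗ[ℚ] ℚ := (l0 (evL G0))⁻¹ • l0 with hl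
  have hl3 : l (evL G0) = 1 := by simp [hl, hl1]
  have hl4 : ∀ G ∈ Kf, l (evL G) = 0 := by
    intro G hG
    have : l0 (evL G) = 0 := hl2 ⟨G, hG, rfl⟩
    simp [hl, this]
  have hsum : ∀ y : A → TT, l y = ∑ i, l (Pi.single i (y i)) := by
    intro y; rw [← map_sum, univ_sum_single]
  set s := A.card with hs
  have hs0 : 0 < s := card_pos.2 ⟨x₀, hx₀⟩
  have : NeZero (4 * s) := ⟨by omega⟩
  obtain ⟨e⟩ : Nonempty ((A → ZMod (4 * s)) ↪ Fin (Fintype.card (A → ZMod (4 * s)) + 2)) :=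
    Function.Embedding.nonempty_of_card_le (by simp)
  obtain ⟨D, -, hD⟩ := h (Fintype.card (A → ZMod (4 * s)) + 2) (by omega)
  obtain ⟨f, hf, k, hk⟩ := hD (fun x => e (fun i =>
    ((⌊(2 * s : ℚ) * l (Pi.single i (∑ k, x k ⊗ₜ[ℚ] x k))⌋ : ℤ) : ZMod (4 * s))))
  obtain ⟨G, k1, k2⟩ := exists_G (⟨x₀, hx₀⟩ : A) (fun i : A => (i : E d)) (fun i => f i)
    (fun i j => hf i i.2 j j.2)
  set y : E d → TT := fun x => ∑ k, f x k ⊗ₜ[ℚ] f x k with hy
  have e1 : ∑ i : A, l (Pi.single i (y i)) = 1 := by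
    rw [← hsum (fun i => y i)]
    have h2 := hl4 (G - G0) (fun α β => by simp [k2, hG0])
    rw [map_sub, map_sub, hl3, sub_eq_zero] at h2
    rw [← h2]
    congr 1
    ext i
    exact (k1 i).symm
  have e2 : ∑ i : A, l (Pi.single i (y x₀)) = 0 := by
    rw [← hsum (fun _ => y x₀),
      ← hl4 (fun α β => if α = none ∧ β = none then y x₀ else 0) (fun α β => by simp)]
    congr 1
    ext i
    exact (ev00 _ _).symm
  have e3 : ∀ i : A, ∃ z : ℤ, |(2 * s : ℚ) * l (Pi.single i (y x₀)) -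
      (2 * s : ℚ) * l (Pi.single i (y i)) - (4 * s) * z| ≤ 1 := by
    intro i
    have h2 := congrFun (e.injective ((hk i i.2).trans (hk x₀ hx₀).symm)) i
    obtain ⟨z, hz⟩ := ((ZMod.intCast_eq_intCast_iff _ _ _).1 h2).dvd
    refine ⟨z, ?_⟩
    have h3 : ((⌊(2 * s : ℚ) * l (Pi.single i (y x₀))⌋ : ℤ) : ℚ) -
        ((⌊(2 * s : ℚ) * l (Pi.single i (y i))⌋ : ℤ) : ℚ) = (4 * s) * z := by
      exact_mod_cast hz
    have a1 := Int.floor_le ((2 * s : ℚ) * l (Pi.single i (y x₀)))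
    have a2 := Int.lt_floor_add_one ((2 * s : ℚ) * l (Pi.single i (y x₀)))
    have a3 := Int.floor_le ((2 * s : ℚ) * l (Pi.single i (y i)))
    have a4 := Int.lt_floor_add_one ((2 * s : ℚ) * l (Pi.single i (y i)))
    rw [abs_le]; constructor <;> linarith
  choose z hz using e3
  have e4 := (abs_sum_le_sum_abs _ univ).trans (sum_le_sum (fun i _ => hz i))
  simp only [sum_sub_distrib, ← mul_sum, e1, e2, sum_const, card_univ, Fintype.card_coe, ← hs,
    nsmul_eq_mul, mul_one, ← Int.cast_sum] at e4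
  generalize ∑ i, z i = Z at e4
  have hs1 : (0 : ℚ) < s := by exact_mod_cast hs0
  rw [abs_le] at e4
  rcases le_or_gt 0 Z with hZ | hZ
  · have : (0 : ℚ) ≤ Z := by exact_mod_cast hZ
    nlinarith
  · have : (Z : ℚ) ≤ -1 := by exact_mod_cast (by omega : Z ≤ -1)
    nlinarith

instance iso_finite {n : ℕ} (X : Finset (E n)) : Finite (X ≃ᵢ X) :=
  Finite.of_injective (fun g => g.toEquiv) IsometryEquiv.toEquiv_injective

lemma IsTransitive.sum_eq {n : ℕ} {X : Finset (E n)} (h : IsTransitive X) [Fintype (X ≃ᵢ X)]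
    {M : Type} [AddCommMonoid M] (φ : X → M) (p q : X) :
    ∑ g : X ≃ᵢ X, φ (g p) = ∑ g : X ≃ᵢ X, φ (g q) := by
  obtain ⟨g, h1, h2⟩ := h p p.2 q q.2
  have h3 : ∀ x : E n, x ∈ X ↔ g x ∈ X := by
    intro x
    rw [← mem_coe, ← mem_coe]
    conv_rhs => rw [← h1]
    exact (g.injective.mem_set_image).symm
  let g' : X ≃ᵢ X := ⟨g.toEquiv.subtypeEquiv h3, Isometry.of_dist_eq (fun x y => g.dist_eq x y)⟩
  have h4 : g' p = q := Subtype.ext h2
  rw [← h4]
  exact (Equiv.sum_comp (Equiv.mulRight g') (fun g => φ (g p))).symm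

theorem tensor_of_sub {A : Finset (E d)} (hA : A.Nonempty) (h : IsSubtransitive A) :
    TensorCond A := by
  classical
  obtain ⟨x₀, hx₀⟩ := hA
  obtain ⟨n, X, hX, f, hf, hfX⟩ := h
  let _ : Fintype (X ≃ᵢ X) := Fintype.ofFinite _
  set c : ℝ := Real.sqrt (1 / (Fintype.card (X ≃ᵢ X) : ℝ)) with hc
  have hcard : (0 : ℝ) < Fintype.card (X ≃ᵢ X) := by exact_mod_cast Fintype.card_pos
  have hc2 : c ^ 2 = 1 / (Fintype.card (X ≃ᵢ X) : ℝ) := Real.sq_sqrt (by positivity)
  set p : A → X := fun i => ⟨f i, hfX i i.2⟩ with hp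
  obtain ⟨G, k1, k2⟩ := exists_G (κ := (X ≃ᵢ X) × Fin n) (⟨x₀, hx₀⟩ : A) (fun i : A => (i : E d))
    (fun i => WithLp.toLp 2 (fun k => c * (k.1 (p i) : E n) k.2)) (by
      intro i j
      rw [← hf i i.2 j j.2, EuclideanSpace.dist_eq]
      have h1 : ∀ g : X ≃ᵢ X, ∑ k, dist (c * (g (p i) : E n) k) (c * (g (p j) : E n) k) ^ 2 =
          c ^ 2 * dist (f i) (f j) ^ 2 := by
        intro g
        have h2 : dist (f i) (f j) = dist (g (p i) : E n) (g (p j) : E n) :=
          (g.dist_eq (p i) (p j)).symm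
        rw [h2, EuclideanSpace.dist_eq, Real.sq_sqrt (sum_nonneg fun _ _ => sq_nonneg _), mul_sum]
        refine sum_congr rfl (fun k _ => ?_)
        rw [Real.dist_eq, Real.dist_eq, sq_abs, sq_abs]; ring
      simp only [Fintype.sum_prod_type, h1, sum_const, card_univ, nsmul_eq_mul, hc2]
      rw [← mul_assoc, mul_one_div_cancel hcard.ne', one_mul, Real.sqrt_sq dist_nonneg])
  set φ : X → TT := fun x => ∑ k, (c * (x : E n) k) ⊗ₜ[ℚ] (c * (x : E n) k) with hφ
  refine ⟨fun α β => G α β - if α = none ∧ β = none then ∑ g : X ≃ᵢ X, φ (g (p ⟨x₀, hx₀⟩)) else 0,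
    fun x hx => ?_, fun α β => ?_⟩
  · simp only [mul_sub, sum_sub_distrib, ev00]
    rw [k1 ⟨x, hx⟩, sub_eq_zero, ← hX.sum_eq φ (p ⟨x, hx⟩), Fintype.sum_prod_type]
  · simpa using! k2 α β

noncomputable def kite (a : ℝ) : Fin 4 → E 2 :=
  ![!₂[-1, 0], !₂[1, 0], !₂[a, Real.sqrt (1 - a ^ 2)], !₂[a, -Real.sqrt (1 - a ^ 2)]]

lemma kite_tensor {a : ℝ} (ha : a ^ 2 < 1) [DecidableEq (E 2)] :
    TensorCond (univ.image (kite a)) := by
  set b := Real.sqrt (1 - a ^ 2) with hb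
  have hb2 : b * b = 1 - a * a := by rw [hb, Real.mul_self_sqrt (by linarith)]; ring
  have hb0 : b ≠ 0 := (Real.sqrt_pos.2 (by linarith)).ne'
  refine ⟨fun α β => match α, β with
    | none, none => -1
    | none, some 0 => -(a ⊗ₜ[ℚ] 1)
    | some 0, none => a ⊗ₜ[ℚ] 1
    | some 0, some 0 => 1
    | some 1, some 1 => b ⊗ₜ[ℚ] b⁻¹
    | _, _ => 0, ?_, ?_⟩
  · intro x hx
    obtain ⟨i, -, rfl⟩ := mem_image.1 hx
    have h1 : ((1 - a * a) ⊗ₜ[ℚ] (1 : ℝ) : TT) = 1 - (a * a) ⊗ₜ[ℚ] 1 := by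
      rw [TensorProduct.sub_tmul, Algebra.TensorProduct.one_def]
    fin_cases i <;>
      simp [kite, hom, Fintype.sum_option, Fin.sum_univ_two, ← hb, TensorProduct.neg_tmul,
        TensorProduct.tmul_neg, ← Algebra.TensorProduct.one_def, hb2, mul_inv_cancel₀ hb0, h1] <;>
      ring
  · intro α β
    fin_cases α <;> fin_cases β <;> simp [mul_inv_cancel₀ hb0]

lemma kite_not_sub {a : ℝ} (ha : Transcendental ℚ a) [DecidableEq (E 2)] :
    ¬ IsSubtransitive (univ.image (kite a)) := by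
  classical
  rintro ⟨n, X, hX, f, hf, hfX⟩
  let _ : Fintype (X ≃ᵢ X) := Fintype.ofFinite _
  have hmem : ∀ i, kite a i ∈ univ.image (kite a) := fun i => mem_image_of_mem _ (mem_univ i)
  set p : Fin 4 → X := fun i => ⟨f (kite a i), hfX _ (hmem i)⟩ with hp
  have hrel : ∀ (g : X ≃ᵢ X) (k : Fin n), (g (p 2) : E n) k + (g (p 3) : E n) k =
      (g (p 0) : E n) k + (g (p 1) : E n) k + a * ((g (p 1) : E n) k - (g (p 0) : E n) k) := by
    intro g k
    obtain ⟨M, h1, -, -⟩ := exists_M 0 (kite a) (fun i => (g (p i) : E n))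
      (fun i j => (g.dist_eq (p i) (p j)).trans (hf _ (hmem i) _ (hmem j)))
    simp only [← h1, ev_eq, kite, Fin.sum_univ_two]
    simp
    ring
  have hne : (p 1 : E n) ≠ p 0 := by
    intro h
    have h1 := hf _ (hmem 1) _ (hmem 0)
    have h2 : f (kite a 1) = f (kite a 0) := h
    rw [h2, dist_self, eq_comm, dist_eq_zero] at h1
    have := congrArg (fun v : E 2 => v 0) h1
    simp [kite] at this
    linarith
  obtain ⟨k, hk⟩ : ∃ k, (p 1 : E n) k ≠ (p 0 : E n) k := by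
    by_contra hc
    push Not at hc
    exact hne (by ext k; exact hc k)
  set Dg : (X ≃ᵢ X) → ℝ := fun g => (g (p 1) : E n) k - (g (p 0) : E n) k with hDg
  set U := Submodule.span ℚ (Set.range Dg) with hU
  obtain ⟨g₀, hg₀⟩ : ∃ g₀, a * Dg g₀ ∉ U := by
    by_contra hc
    push Not at hc
    apply ha
    refine (isIntegral_of_smul_mem_submodule U ?_ (Submodule.fg_span (Set.finite_range _)) a
      ?_).isAlgebraic
    · rw [Submodule.ne_bot_iff]
      exact ⟨Dg 1, Submodule.subset_span ⟨1, rfl⟩, sub_ne_zero.2 hk⟩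
    · intro x hx
      induction hx using Submodule.span_induction with
      | mem x hx => obtain ⟨g, rfl⟩ := hx; exact hc g
      | zero => simp
      | add x y _ _ hx hy => rw [smul_add]; exact add_mem hx hy
      | smul r x _ hx => rw [smul_comm]; exact U.smul_mem _ hx
  obtain ⟨l, hl1, hl2⟩ := Submodule.exists_le_ker_of_notMem hg₀
  set u : X → ℚ := fun x => l ((x : E n) k) with hu
  set v : X → ℚ := fun x => l (a * (x : E n) k) with hv
  have e1 : ∀ g : X ≃ᵢ X, u (g (p 1)) = u (g (p 0)) := by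
    intro g
    have : l (Dg g) = 0 := hl2 (Submodule.subset_span ⟨g, rfl⟩)
    rwa [hDg, map_sub, sub_eq_zero] at this
  have e2 : ∀ g : X ≃ᵢ X, u (g (p 2)) + u (g (p 3)) =
      2 * u (g (p 0)) + (v (g (p 1)) - v (g (p 0))) := by
    intro g
    have := congrArg l (hrel g k)
    rw [mul_sub, map_add, map_add, map_add, map_sub] at this
    have h2 := e1 g
    simp only [hu, hv] at h2 ⊢
    linarith
  have s1 := hX.sum_eq (fun x => u x * v x) (p 1) (p 0)
  have s2 := hX.sum_eq (fun x => u x ^ 2) (p 2) (p 0)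
  have s3 := hX.sum_eq (fun x => u x ^ 2) (p 3) (p 0)
  have s4 : ∑ g : X ≃ᵢ X, (v (g (p 1)) - v (g (p 0))) ^ 2 ≤
      ∑ g : X ≃ᵢ X, (2 * u (g (p 2)) ^ 2 + 2 * u (g (p 3)) ^ 2 - 4 * u (g (p 0)) ^ 2 -
        4 * (u (g (p 1)) * v (g (p 1))) + 4 * (u (g (p 0)) * v (g (p 0)))) := by
    refine sum_le_sum (fun g _ => ?_)
    have h3 : v (g (p 1)) = u (g (p 2)) + u (g (p 3)) - 2 * u (g (p 0)) + v (g (p 0)) := by
      linarith [e2 g]
    rw [e1 g, h3]
    nlinarith [sq_nonneg (u (g (p 2)) - u (g (p 3)))]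
  simp only [sum_add_distrib, sum_sub_distrib, ← mul_sum, s1, s2, s3] at s4
  have s5 := single_le_sum (f := fun g : X ≃ᵢ X => (v (g (p 1)) - v (g (p 0))) ^ 2)
    (fun g _ => sq_nonneg _) (mem_univ g₀)
  apply hl1
  rw [hDg, mul_sub, map_sub]
  have s6 : (v (g₀ (p 1)) - v (g₀ (p 0))) ^ 2 ≤ 0 := by linarith
  exact pow_eq_zero_iff (two_ne_zero) |>.1 (le_antisymm s6 (sq_nonneg _))

lemma exists_transc : ∃ a : ℝ, a ^ 2 < 1 ∧ Transcendental ℚ a := by
  have h : Transcendental ℚ (liouvilleNumber (2 : ℕ)) := fun h =>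
    transcendental_liouvilleNumber le_rfl ((IsFractionRing.isAlgebraic_iff ℤ ℚ ℝ).2 h)
  refine ⟨Int.fract (liouvilleNumber (2 : ℕ)), ?_, fun h2 => h ?_⟩
  · have h1 := Int.fract_nonneg (liouvilleNumber (2 : ℕ))
    have h2 := Int.fract_lt_one (liouvilleNumber (2 : ℕ))
    nlinarith
  · rw [← Int.fract_add_floor (liouvilleNumber (2 : ℕ))]
    exact h2.add (isAlgebraic_intCast _)

theorem exists_kite : ∃ A : Finset (E 2), A.Nonempty ∧ IsRamsey A ∧ ¬ IsSubtransitive A := by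
  classical
  obtain ⟨a, h1, h2⟩ := exists_transc
  have hne : (univ.image (kite a)).Nonempty := univ_nonempty.image _
  exact ⟨_, hne, ramsey_of_tensor hne (kite_tensor h1), kite_not_sub h2⟩

end Vale.Agent.P058
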