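import Vale.Agent.P058.Abel

/-! From the tensor criterion to the degree two statement. -/

namespace Vale.Agent.P058

open Finset
open scoped TensorProduct

abbrev TT : Type := ℝ ⊗[ℚ] ℝ
abbrev Q3 : Type := ZA ℝ ⧸ (JJ ℝ ^ 3)

noncomputable def mm : TT →ₐ[ℚ] ℝ := Algebra.TensorProduct.lmul' (S := ℝ) ℚ

lemma mm_tmul (s t : ℝ) : mm (s ⊗ₜ[ℚ] t) = s * t := by simp [mm]

lemma cube_mem (s s' t : ℝ) : (ee s - 1) * (ee s' - 1) * (ee t - 1) ∈ JJ ℝ ^ 3 := by
  rw [pow_succ, sq]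
  exact Ideal.mul_mem_mul (Ideal.mul_mem_mul (gen_mem _) (gen_mem _)) (gen_mem _)

noncomputable def bb0 : ℝ →+ ℝ →+ Q3 :=
  AddMonoidHom.mk' (fun s => AddMonoidHom.mk'
    (fun t => Ideal.Quotient.mk (JJ ℝ ^ 3) ((ee s - 1) * (ee t - 1))) (fun t t' => by
      rw [← map_add, Ideal.Quotient.eq]
      convert cube_mem s t t' using 1
      rw [ee_add]; ring)) (fun s s' => by
    ext t
    simp only [AddMonoidHom.mk'_apply, AddMonoidHom.add_apply]
    rw [← map_add, Ideal.Quotient.eq]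
    convert cube_mem s s' t using 1
    rw [ee_add]; ring)

lemma rat_bal {P : Type} [AddCommGroup P] (f : ℝ →+ ℝ →+ P) (r : ℚ) (s t : ℝ) :
    f (r • s) t = f s (r • t) := by
  have hd : (r.den : ℝ) ≠ 0 := by exact_mod_cast r.den_nz
  have h1 : t = (r.den : ℤ) • (t / r.den) := by simp; field_simp
  have h2 : (r.den : ℤ) • (r • s) = r.num • s := by
    simp only [zsmul_eq_mul, Int.cast_natCast, Rat.smul_def]
    rw [← mul_assoc, Rat.cast_def]; field_simp
  have h3 : r • t = r.num • (t / r.den) := by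
    simp only [zsmul_eq_mul, Rat.smul_def]
    rw [Rat.cast_def]; field_simp
  have h4 : ∀ (n : ℤ) (x y : ℝ), f x (n • y) = f (n • x) y := by
    intro n x y
    rw [map_zsmul, map_zsmul]; rfl
  rw [h3, h4, ← h2, ← h4, ← h1]

noncomputable def bb : TT →+ Q3 := TensorProduct.liftAddHom bb0 (rat_bal bb0)

lemma bb_tmul (s t : ℝ) :
    bb (s ⊗ₜ[ℚ] t) = Ideal.Quotient.mk (JJ ℝ ^ 3) ((ee s - 1) * (ee t - 1)) := rfl

variable {d : ℕ} {ι : Type} (a : ι → E d)

def Rep (τ : ι → TT) (C : MM d) (ε : ℝ) : Prop :=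
  ∃ z : ZA (HH d), (∀ i, Ideal.Quotient.mk (JJ ℝ ^ 3) (mp (evH (a i)) z) = bb (τ i)) ∧
    Qz z = C ∧ Ng z ε

variable {a}

lemma Rep.add {τ τ' : ι → TT} {C C' : MM d} {ε ε' : ℝ} (h : Rep a τ C ε) (h' : Rep a τ' C' ε') :
    Rep a (τ + τ') (C + C') (ε + ε') := by
  obtain ⟨z, h1, h2, h3⟩ := h
  obtain ⟨z', k1, k2, k3⟩ := h'
  exact ⟨z + z', fun i => by simp [h1, k1], by simp [h2, k2], h3.add k3⟩

lemma Rep.cast {τ τ' : ι → TT} {C C' : MM d} {ε ε' : ℝ} (h : Rep a τ C ε) (h1 : τ = τ')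
    (h2 : C = C') (h3 : ε ≤ ε') : Rep a τ' C' ε' := by
  subst h1 h2
  obtain ⟨z, k1, k2, k3⟩ := h
  exact ⟨z, k1, k2, k3.mono h3⟩

lemma Rep.zero : Rep a 0 0 0 := ⟨0, by simp, by simp, Ng.zero⟩

lemma Rep.sum {κ : Type} (s : Finset κ) (τ : κ → ι → TT) (C : κ → MM d) (ε : κ → ℝ)
    (h : ∀ k ∈ s, Rep a (τ k) (C k) (ε k)) :
    Rep a (∑ k ∈ s, τ k) (∑ k ∈ s, C k) (∑ k ∈ s, ε k) := by
  classical
  induction s using Finset.induction_on with
  | empty => simpa using Rep.zero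
  | insert k s hk ih =>
    rw [sum_insert hk, sum_insert hk, sum_insert hk]
    exact (h k (by simp)).add (ih (fun j hj => h j (by simp [hj])))

lemma QQ_zero : QQ (0 : HH d) = 0 := by ext; simp [QQ]

lemma rep_pair (x y : HH d) : Rep a (fun i => ev (a i) x ⊗ₜ[ℚ] ev (a i) y)
    (QQ (x + y) - QQ x - QQ y) ((QQ x).trace + (QQ y).trace) := by
  have e : (ee x - 1) * (ee y - 1) = ee (x + y) + ee 0 - ee x - ee y := by
    rw [ee_add, ee_zero]; ring
  refine ⟨(ee x - 1) * (ee y - 1), fun i => ?_, ?_, ee x + ee y, add_mem (ee_mem _) (ee_mem _),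
    ?_, ?_⟩
  · rw [bb_tmul]; simp [mp_ee, evH]
  · rw [e]; simp [Qz_ee, QQ_zero]
  · rw [e]
    convert add_mem (ee_mem (x + y)) (ee_mem (0 : HH d)) using 1
    ring
  · simp [Qz_ee]

lemma rep_diag (x : HH d) : Rep a (fun i => ev (a i) x ⊗ₜ[ℚ] ev (a i) x) ((2 : ℝ) • QQ x) 0 := by
  have e : -((ee x - 1) * (ee (-x) - 1)) = ee x + ee (-x) - ee 0 - ee 0 := by
    have := ee_add x (-x)
    rw [add_neg_cancel, ee_zero] at this
    rw [ee_zero]
    linear_combination this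
  refine ⟨-((ee x - 1) * (ee (-x) - 1)), fun i => ?_, ?_, ee 0 + ee 0,
    add_mem (ee_mem _) (ee_mem _), ?_, ?_⟩
  · have h1 : ev (a i) x ⊗ₜ[ℚ] ev (a i) x = -(ev (a i) x ⊗ₜ[ℚ] (-ev (a i) x)) := by
      rw [TensorProduct.tmul_neg, neg_neg]
    have h2 : -ev (a i) x = ev (a i) (-x) := (map_neg (evH (a i)) x).symm
    simp only
    rw [h1, map_neg bb, bb_tmul, h2]
    simp [mp_ee, evH]
  · rw [e]
    have : QQ (-x) = QQ x := by ext; simp [QQ]
    simp [Qz_ee, QQ_zero, this, two_smul]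
  · rw [e]
    convert add_mem (ee_mem x) (ee_mem (-x)) using 1
    ring
  · simp [Qz_ee, QQ_zero]

variable (a) in
noncomputable def TE (α β : Option (Fin d)) (τ : TT) : ι → TT :=
  fun i => (hom (a i) α ⊗ₜ[ℚ] hom (a i) β) * τ

lemma TE_add (α β : Option (Fin d)) (τ τ' : TT) :
    TE a α β (τ + τ') = TE a α β τ + TE a α β τ' := by
  ext i; simp [TE, mul_add]

lemma TE_zero (α β : Option (Fin d)) : TE a α β 0 = 0 := by ext i; simp [TE]

def S0 (α β : Option (Fin d)) : MM d :=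
  QQ (Pi.single α 1 + Pi.single β 1) - QQ (Pi.single α 1) - QQ (Pi.single β 1)

def wt (α : Option (Fin d)) : ℝ := α.elim 0 (fun _ => 1)

lemma ev_single (x : E d) (α : Option (Fin d)) (s : ℝ) : ev x (Pi.single α s) = hom x α * s := by
  simp [ev, Pi.single_apply]

lemma trace_single (α : Option (Fin d)) (s : ℝ) :
    (QQ (Pi.single α s : HH d)).trace = wt α * s ^ 2 := by
  rw [trace_QQ]
  cases α <;> simp [wt, Pi.single_apply]

lemma rep_tmul (α β : Option (Fin d)) (s t : ℝ) {k : ℚ} (hk : k ≠ 0) :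
    Rep a (TE a α β (s ⊗ₜ[ℚ] t)) ((s * t) • S0 α β) (wt α * (k * s) ^ 2 + wt β * (t / k) ^ 2) := by
  have hk' : (k : ℝ) ≠ 0 := by exact_mod_cast hk
  refine (rep_pair (Pi.single α (k * s)) (Pi.single β (t / k))).cast ?_ ?_ ?_
  · ext i
    simp only [TE, ev_single, Algebra.TensorProduct.tmul_mul_tmul]
    have h1 : hom (a i) α * (k * s) = k • (hom (a i) α * s) := by rw [Rat.smul_def]; ring
    have h2 : hom (a i) β * t = k • (hom (a i) β * (t / k)) := by rw [Rat.smul_def]; field_simp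
    rw [h1, h2, TensorProduct.smul_tmul]
  · ext γ δ
    simp only [S0, QQ, Matrix.sub_apply, Matrix.of_apply, Pi.add_apply, Matrix.smul_apply,
      smul_eq_mul, Pi.single_apply]
    split_ifs <;> field_simp <;> ring
  · rw [trace_single, trace_single]

lemma wt_le (α : Option (Fin d)) : wt α ≤ 1 := by cases α <;> simp [wt]

lemma exists_small_rat (s : ℝ) {ε : ℝ} (hε : 0 < ε) : ∃ k : ℚ, 0 < k ∧ ((k : ℝ) * s) ^ 2 ≤ ε := by
  obtain ⟨k, hk1, hk2⟩ := exists_rat_btwn (show (0 : ℝ) < min 1 (ε / (s ^ 2 + 1)) by positivity)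
  refine ⟨k, by exact_mod_cast hk1, ?_⟩
  have h1 : (k : ℝ) ≤ 1 := hk2.le.trans (min_le_left _ _)
  have h2 : (k : ℝ) * (s ^ 2 + 1) ≤ ε :=
    (le_div_iff₀ (by positivity)).1 (hk2.le.trans (min_le_right _ _))
  have h3 : (k : ℝ) ^ 2 ≤ k := by nlinarith
  have h4 : (k : ℝ) ^ 2 * s ^ 2 ≤ k * s ^ 2 := by gcongr
  nlinarith

lemma rep_none {α β : Option (Fin d)} (h : α = none ∨ β = none) (τ : TT) :
    ∀ ε : ℝ, 0 < ε → Rep a (TE a α β τ) 0 ε := by
  have hS : S0 α β = 0 := by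
    rcases h with rfl | rfl <;> (ext γ δ; simp [S0, QQ])
  induction τ using TensorProduct.induction_on with
  | zero => exact fun ε hε => Rep.zero.cast (TE_zero _ _).symm rfl hε.le
  | tmul s t =>
    intro ε hε
    rcases h with rfl | rfl
    · obtain ⟨k, hk1, hk2⟩ := exists_small_rat t hε
      refine (rep_tmul none β s t (inv_ne_zero hk1.ne')).cast rfl (by rw [hS, smul_zero]) ?_
      have h1 : t / ((k⁻¹ : ℚ) : ℝ) = k * t := by push_cast; field_simp
      have h2 := wt_le β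
      rw [h1]
      simp only [wt, Option.elim] at h2 ⊢
      nlinarith [sq_nonneg (k * t)]
    · obtain ⟨k, hk1, hk2⟩ := exists_small_rat s hε
      refine (rep_tmul α none s t hk1.ne').cast rfl (by rw [hS, smul_zero]) ?_
      have h2 := wt_le α
      simp only [wt, Option.elim] at h2 ⊢
      nlinarith [sq_nonneg (k * s)]
  | add x y hx hy =>
    intro ε hε
    exact ((hx _ (half_pos hε)).add (hy _ (half_pos hε))).cast (TE_add _ _ _ _).symm (by simp)
      (by simp)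

lemma rep_small (α β : Option (Fin d)) (s : ℝ) {ε : ℝ} (hε : 0 < ε) : ∃ η : ℝ, 0 < η ∧
    ∀ t, |t| ≤ η → Rep a (TE a α β (s ⊗ₜ[ℚ] t)) ((s * t) • S0 α β) ε ∧
      Rep a (TE a α β (t ⊗ₜ[ℚ] s)) ((t * s) • S0 α β) ε := by
  obtain ⟨k, hk1, hk2⟩ := exists_small_rat s (half_pos hε)
  have hk : (0 : ℝ) < k := by exact_mod_cast hk1
  refine ⟨k * Real.sqrt (ε / 2), by positivity, fun t ht => ?_⟩
  have h1 : (t / k) ^ 2 ≤ ε / 2 := by
    rw [← Real.sq_sqrt (half_pos hε).le, sq_le_sq, abs_div, abs_of_pos hk, div_le_iff₀ hk,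
      abs_of_nonneg (Real.sqrt_nonneg _), mul_comm]
    exact ht
  have h2 := wt_le α
  have h3 := wt_le β
  constructor
  · refine (rep_tmul α β s t hk1.ne').cast rfl rfl ?_
    nlinarith [sq_nonneg (k * s), sq_nonneg (t / k)]
  · refine (rep_tmul α β t s (inv_ne_zero hk1.ne')).cast rfl rfl ?_
    have e1 : s / ((k⁻¹ : ℚ) : ℝ) = k * s := by push_cast; field_simp
    have e2 : ((k⁻¹ : ℚ) : ℝ) * t = t / k := by push_cast; field_simp
    rw [e1, e2]
    nlinarith [sq_nonneg (k * s), sq_nonneg (t / k)]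

lemma rep_split (α β : Option (Fin d)) (τ : TT) : ∀ ε : ℝ, 0 < ε → ∃ (τ' : TT) (r : ℝ),
    τ = τ' + r ⊗ₜ[ℚ] 1 ∧ |mm τ'| ≤ ε ∧ Rep a (TE a α β τ') (mm τ' • S0 α β) ε := by
  induction τ using TensorProduct.induction_on with
  | zero =>
    exact fun ε hε => ⟨0, 0, by simp, by simpa using hε.le,
      Rep.zero.cast (TE_zero _ _).symm (by simp) hε.le⟩
  | tmul s t =>
    intro ε hε
    obtain ⟨η, hη, h⟩ := rep_small (a := a) α β s hε
    obtain ⟨q, hq1, hq2⟩ := exists_rat_btwn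
      (show t - min η (ε / (|s| + 1)) < t by
        have : 0 < min η (ε / (|s| + 1)) := by positivity
        linarith)
    have h1 : |t - q| ≤ min η (ε / (|s| + 1)) := by rw [abs_le]; constructor <;> linarith
    refine ⟨s ⊗ₜ[ℚ] (t - q), q • s, ?_, ?_, ?_⟩
    · rw [TensorProduct.smul_tmul, ← TensorProduct.tmul_add]; simp
    · rw [mm_tmul, abs_mul]
      have h2 := (le_div_iff₀ (by positivity)).1 (h1.trans (min_le_right _ _))
      nlinarith [abs_nonneg (t - q), abs_nonneg s]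
    · rw [mm_tmul]; exact (h _ (h1.trans (min_le_left _ _))).1
  | add x y hx hy =>
    intro ε hε
    obtain ⟨τ, r, h1, h2, h3⟩ := hx _ (half_pos hε)
    obtain ⟨τ', r', k1, k2, k3⟩ := hy _ (half_pos hε)
    refine ⟨τ + τ', r + r', by rw [h1, k1, TensorProduct.add_tmul]; abel, ?_, ?_⟩
    · rw [map_add]; exact (abs_add_le _ _).trans (by linarith)
    · exact (h3.add k3).cast (TE_add _ _ _ _).symm (by rw [map_add, add_smul]) (by simp)

lemma rep_ker (α β : Option (Fin d)) {τ : TT} (hτ : mm τ = 0) {ε : ℝ} (hε : 0 < ε) :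
    Rep a (TE a α β τ) 0 ε := by
  obtain ⟨η, hη, h⟩ := rep_small (a := a) α β 1 (half_pos hε)
  obtain ⟨τ', r, h1, h2, h3⟩ := rep_split (a := a) α β τ (min η (ε / 2)) (by positivity)
  have h4 : r = -mm τ' := by
    rw [h1, map_add, mm_tmul] at hτ; linarith
  have h5 := (h r (by rw [h4, abs_neg]; exact h2.trans (min_le_left _ _))).2
  refine (h3.add h5).cast (by rw [h1, TE_add]) (by rw [h4]; simp) ?_
  linarith [min_le_right η (ε / 2)]

theorem AJ_of_tensor (P : Option (Fin d) → Option (Fin d) → TT)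
    (h1 : ∀ i, ∑ α, ∑ β, (hom (a i) α ⊗ₜ[ℚ] hom (a i) β) * P α β = 0)
    (h2 : ∀ α β : Fin d, mm (P (some α) (some β)) = if α = β then 1 else 0) : AJ a 3 := by
  intro ε hε
  set C : Option (Fin d) → Option (Fin d) → MM d := fun α β =>
    if α = β then (2 : ℝ) • QQ (Pi.single α 1) else 0 with hC
  have key : ∀ α β, ∀ ε : ℝ, 0 < ε → Rep a (TE a α β (P α β)) (C α β) ε := by
    intro α β ε hε
    rcases α with _ | α
    · refine (rep_none (Or.inl rfl) _ ε hε).cast rfl ?_ le_rfl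
      simp only [hC]; split_ifs
      · ext; simp [QQ]
      · rfl
    rcases β with _ | β
    · exact (rep_none (Or.inr rfl) _ ε hε).cast rfl (by simp [hC]) le_rfl
    by_cases hαβ : α = β
    · subst hαβ
      have h3 := rep_ker (a := a) (some α) (some α) (τ := P (some α) (some α) - 1)
        (by simp [h2]) hε
      refine (h3.add (rep_diag (Pi.single (some α) 1))).cast ?_ (by simp [hC]) (by simp)
      ext i
      simp [TE, ev_single, mul_sub]
    · exact (rep_ker _ _ (by simp [h2, hαβ]) hε).cast rfl (by simp [hC, hαβ]) le_rfl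
  set N : ℝ := ((Fintype.card (Option (Fin d)) : ℕ) : ℝ) with hN
  have hN0 : 0 < N := by rw [hN]; exact_mod_cast Fintype.card_pos
  obtain ⟨z, k1, k2, k3⟩ := Rep.sum univ _ _ _ (fun α _ => Rep.sum univ _ _ _
    (fun β _ => key α β (ε / N / N) (by positivity)))
  refine ⟨z, 2, two_pos, fun i => ?_, ?_, k3.mono ?_⟩
  · rw [← Ideal.Quotient.eq_zero_iff_mem, k1]
    simp only [Finset.sum_apply, TE, h1, map_zero]
  · rw [k2]
    ext γ δ
    simp only [hC, sum_ite_eq, mem_univ, if_true, Matrix.sum_apply, Matrix.smul_apply, QQ,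
      Matrix.of_apply, smul_eq_mul, Pi.single_apply, Matrix.one_apply, ← mul_sum]
    by_cases h : γ = δ
    · simp [h]
    · simp [h]
  · simp only [sum_const, card_univ, nsmul_eq_mul, ← hN]
    rw [mul_div_cancel₀ _ hN0.ne', mul_div_cancel₀ _ hN0.ne']
    linarith

theorem ramsey_of_tensor {A : Finset (E d)} (hA : A.Nonempty) (h : TensorCond A) : IsRamsey A := by
  obtain ⟨P, h1, h2⟩ := h
  have : Nonempty A := hA.coe_sort
  exact ramsey_of_bal (bal_of_AJ Subtype.val_injective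
    (AJ_of_tensor P (fun i => h1 i i.2) h2))

end Vale.Agent.P058
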