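import Vale.Agent.P058.Group

/-! Reduction to a group through ultrafilters. -/

namespace Vale.Agent.P058

open Filter Set

attribute [local instance] Ultrafilter.mul Ultrafilter.semigroup

lemma exists_group_idem (M : Type) [Nonempty M] [Semigroup M] [TopologicalSpace M]
    [CompactSpace M] [T2Space M] (hc : ∀ r : M, Continuous (· * r)) :
    ∃ u : M, u * u = u ∧ ∀ y : M, ∃ z : M, z * (u * y * u) = u := by
  let S : Set (Set M) := {N | IsClosed N ∧ N.Nonempty ∧ ∀ m, ∀ m' ∈ N, m * m' ∈ N}
  obtain ⟨N, hN⟩ : ∃ N, Minimal (· ∈ S) N := by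
    refine zorn_superset _ fun c hcs hc => ?_
    refine ⟨⋂₀ c, ⟨isClosed_sInter fun t ht => (hcs ht).1, ?_, fun m m' hm' => ?_⟩,
      fun s hs => Set.sInter_subset_of_mem hs⟩
    · obtain rfl | hcnemp := c.eq_empty_or_nonempty
      · rw [Set.sInter_empty]; exact Set.univ_nonempty
      have : Nonempty c := hcnemp.coe_sort
      convert! @IsCompact.nonempty_iInter_of_directed_nonempty_isCompact_isClosed _ _ _ this
        ((↑) : c → Set M) ?_ ?_ ?_ ?_
      · exact Set.sInter_eq_iInter
      · refine DirectedOn.directed_val (IsChain.directedOn hc.symm)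
      exacts [fun i => (hcs i.prop).2.1, fun i => (hcs i.prop).1.isCompact,
        fun i => (hcs i.prop).1]
    · rw [Set.mem_sInter]
      exact fun t ht => (hcs ht).2.2 m m' (Set.mem_sInter.mp hm' t ht)
  obtain ⟨u, hu, huu⟩ := exists_idempotent_in_compact_subsemigroup hc N hN.prop.2.1
    hN.prop.1.isCompact (fun x _ y hy => hN.prop.2.2 x y hy)
  refine ⟨u, huu, fun y => ?_⟩
  have hg : u * y * u ∈ N := hN.prop.2.2 _ _ hu
  have h1 : range (· * (u * y * u)) ∈ S :=
    ⟨(isCompact_range (hc _)).isClosed, range_nonempty _, by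
      rintro m _ ⟨m', rfl⟩
      exact ⟨m * m', mul_assoc _ _ _⟩⟩
  have h2 : range (· * (u * y * u)) ⊆ N := by
    rintro _ ⟨m, rfl⟩
    exact hN.prop.2.2 _ _ hg
  exact hN.le_of_le h1 h2 hu

/-- the group `u M u` -/
def GU {M : Type} [Semigroup M] (u : M) : Type := {g : M // u * g = g ∧ g * u = g}

@[instance_reducible]
noncomputable def GU.group {M : Type} [Semigroup M] {u : M} (h1 : u * u = u)
    (h2 : ∀ y : M, ∃ z : M, z * (u * y * u) = u) : Group (GU u) :=
  letI : Mul (GU u) := ⟨fun x y => ⟨x.1 * y.1, by rw [← mul_assoc, x.2.1],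
    by rw [mul_assoc, y.2.2]⟩⟩
  letI : One (GU u) := ⟨⟨u, h1, h1⟩⟩
  letI : Inv (GU u) := ⟨fun x => ⟨u * (h2 x.1).choose * u, by rw [← mul_assoc, ← mul_assoc, h1],
    by rw [mul_assoc, h1]⟩⟩
  Group.ofLeftAxioms (fun x y z => Subtype.ext (mul_assoc x.1 y.1 z.1))
    (fun x => Subtype.ext x.2.1) (fun x => Subtype.ext (by
      have h := (h2 x.1).choose_spec
      show u * (h2 x.1).choose * u * x.1 = u
      generalize (h2 x.1).choose = z at h
      rw [x.2.1, x.2.2] at h
      rw [mul_assoc, x.2.1, mul_assoc, h, h1]))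

lemma umap_mul {M N : Type} [Monoid M] [Monoid N] (f : M →* N) (U V : Ultrafilter M) :
    Ultrafilter.map f (U * V) = Ultrafilter.map f U * Ultrafilter.map f V :=
  Ultrafilter.coe_inj.mp <| Filter.ext' fun p => by
    rw [Ultrafilter.eventually_mul]
    simp only [Ultrafilter.coe_map, eventually_map, Ultrafilter.eventually_mul, map_mul]

variable {d : ℕ}

def QW (w : FreeMonoid (HH d)) : MM d := (w.toList.map QQ).sum

lemma QW_mul (w w' : FreeMonoid (HH d)) : QW (w * w') = QW w + QW w' := by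
  simp [QW]

def kap (d : ℕ) (t : ℝ) : HH d := Pi.single none t

lemma ev_kap (x : E d) (t : ℝ) : ev x (kap d t) = t := by simp [ev_eq, kap]

lemma QQ_kap (t : ℝ) : QQ (kap d t) = 0 := by ext α β; simp [QQ, kap]

lemma QW_kap (w : FreeMonoid ℝ) : QW (FreeMonoid.map (kap d) w) = 0 := by
  unfold QW
  rw [FreeMonoid.toList_map, List.map_map]
  apply List.sum_eq_zero
  intro x hx
  obtain ⟨t, -, rfl⟩ := List.mem_map.1 hx
  exact QQ_kap t

lemma map_kap (x : E d) (U : Ultrafilter (FreeMonoid ℝ)) :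
    Ultrafilter.map (FreeMonoid.map (ev x)) (Ultrafilter.map (FreeMonoid.map (kap d)) U) = U := by
  rw [Ultrafilter.map_map]
  have : (FreeMonoid.map (ev x)) ∘ (FreeMonoid.map (kap d)) = id := by
    funext w
    rw [Function.comp_apply, FreeMonoid.map_map]
    have : ev x ∘ kap d = id := funext (ev_kap x)
    rw [this, FreeMonoid.map_id]; rfl
  rw [this, Ultrafilter.map_id]

lemma list_sq (x y : E d) (L : List (HH d)) :
    (L.map (fun h => (ev x h - ev y h) ^ 2)).sum =
      ∑ α, ∑ β, (x α - y α) * (x β - y β) * (L.map QQ).sum α β := by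
  induction L with
  | nil => simp
  | cons h L ih =>
    simp only [List.map_cons, List.sum_cons, Matrix.add_apply, mul_add, Finset.sum_add_distrib, ih]
    congr 1
    have : ev x h - ev y h = ∑ k, (x k - y k) * h (some k) := by
      rw [ev_eq, ev_eq]
      simp only [sub_mul, Finset.sum_sub_distrib]
      ring
    rw [this, sq, Finset.sum_mul_sum]
    refine Finset.sum_congr rfl (fun α _ => Finset.sum_congr rfl (fun β _ => ?_))
    simp only [QQ, Matrix.of_apply]
    ring

noncomputable def pt (n : ℕ) (l : List ℝ) : E n := WithLp.toLp 2 (fun k : Fin n => l.getD k 0)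

lemma dist_pt (x y : E d) (L : List (HH d)) (hL : (L.map QQ).sum = 1) :
    dist (pt (L.length + 1) (L.map (ev x))) (pt (L.length + 1) (L.map (ev y))) = dist x y := by
  rw [EuclideanSpace.dist_eq, EuclideanSpace.dist_eq]
  congr 1
  have h1 := list_sq x y L
  rw [hL] at h1
  simp only [Matrix.one_apply, mul_ite, mul_one, mul_zero, Finset.sum_ite_eq, Finset.mem_univ,
    if_true] at h1
  simp only [Real.dist_eq, sq_abs]
  rw [Fin.sum_univ_castSucc, Finset.sum_congr rfl (fun α _ => sq (x α - y α)), ← h1,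
    ← List.sum_ofFn]
  simp only [pt, Fin.val_castSucc, Fin.val_last]
  rw [List.getD_eq_default _ _ (by simp), List.getD_eq_default _ _ (by simp)]
  simp only [sub_self, ne_eq, OfNat.ofNat_ne_zero, not_false_eq_true, zero_pow, add_zero]
  congr 1
  apply List.ext_getElem (by simp)
  intro i h1 h2
  simp [List.getD_eq_getElem?_getD]

theorem ramsey_of_bal {A : Finset (E d)} (hB : Bal (fun i : A => (i : E d))) : IsRamsey A := by
  classical
  intro r _
  by_contra hcon
  push Not at hcon
  have hc : ∀ n : ℕ, ∃ c : E (n + 1) → Fin r, ∀ f : E d → E (n + 1), IsCopyMap A f →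
      ∀ k : Fin r, ∃ x ∈ A, c (f x) ≠ k := fun n => hcon (n + 1) (by omega)
  choose c hc using hc
  set χ : FreeMonoid ℝ → Fin r := fun w => c w.toList.length (pt _ w.toList) with hχ
  obtain ⟨u, h1, h2⟩ := exists_group_idem (Ultrafilter (FreeMonoid ℝ))
    Ultrafilter.continuous_mul_left
  let _ : Group (GU u) := GU.group h1 h2
  set φ : ℝ → GU u := fun t => ⟨u * pure (FreeMonoid.of t) * u,
    by rw [← mul_assoc, ← mul_assoc, h1], by rw [mul_assoc, h1]⟩ with hφ
  have hcol : ∀ U : Ultrafilter (FreeMonoid ℝ), ∃ k, ∀ᶠ w in U, χ w = k := by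
    intro U
    obtain ⟨k, hk⟩ := (Ultrafilter.map χ U).eq_pure_of_finite
    refine ⟨k, ?_⟩
    have : ∀ᶠ j in Ultrafilter.map χ U, j = k := by rw [hk]; simp
    exact this
  choose col hcol using hcol
  obtain ⟨x, hx, k, hk⟩ := exists_mono (φ := φ) Subtype.val_injective hB (fun g => col g.1)
  have key : ∀ (x : A → GU u) (B : MM d), Pos (fun i : A => (i : E d)) φ x B →
      ∃ U : Ultrafilter (FreeMonoid (HH d)), (∀ᶠ w in U, QW w = B) ∧
        ∀ i : A, Ultrafilter.map (FreeMonoid.map (ev (i : E d))) U = (x i).1 := by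
    have hk0 : ∀ U : Ultrafilter (FreeMonoid ℝ),
        ∀ᶠ w in ((Ultrafilter.map (FreeMonoid.map (kap d)) U : Ultrafilter (FreeMonoid (HH d))) :
          Filter (FreeMonoid (HH d))), QW w = 0 := fun U =>
      eventually_map.2 (Eventually.of_forall QW_kap)
    have hmul : ∀ (U V : Ultrafilter (FreeMonoid (HH d))) (B C : MM d), (∀ᶠ w in U, QW w = B) →
        (∀ᶠ w in V, QW w = C) → ∀ᶠ w in (U * V : Ultrafilter _), QW w = B + C := by
      intro U V B C hU hV
      rw [Ultrafilter.eventually_mul]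
      filter_upwards [hU] with w hw
      filter_upwards [hV] with w' hw'
      rw [QW_mul, hw, hw']
    intro x B h
    induction h with
    | const g => exact ⟨_, hk0 g.1, fun i => map_kap _ _⟩
    | col h =>
      refine ⟨Ultrafilter.map (FreeMonoid.map (kap d)) u * pure (FreeMonoid.of h) *
        Ultrafilter.map (FreeMonoid.map (kap d)) u, ?_, fun i => ?_⟩
      · have := hmul _ _ _ _ (hmul _ (pure (FreeMonoid.of h)) _ (QQ h) (hk0 u) (by simp [QW]))
          (hk0 u)
        simpa using this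
      · rw [umap_mul, umap_mul, map_kap, Ultrafilter.map_pure]
        rfl
    | mul _ _ ih1 ih2 =>
      obtain ⟨U, hU1, hU2⟩ := ih1
      obtain ⟨V, hV1, hV2⟩ := ih2
      refine ⟨U * V, hmul _ _ _ _ hU1 hV1, fun i => ?_⟩
      rw [umap_mul, hU2, hV2]
      rfl
  obtain ⟨U, hU1, hU2⟩ := key x 1 hx
  have h3 : ∀ᶠ w in U, ∀ i : A, χ (FreeMonoid.map (ev (i : E d)) w) = k := by
    rw [eventually_all]
    intro i
    have := hcol (x i).1
    rw [← hU2 i, hU2 i, hk i, ← hU2 i] at this
    exact this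
  obtain ⟨w, hw1, hw2⟩ := (hU1.and h3).exists
  obtain ⟨y, hy, hne⟩ := hc w.toList.length (fun y => pt _ (w.toList.map (ev y)))
    (fun y _ z _ => dist_pt y z _ hw1) k
  apply hne
  have := hw2 ⟨y, hy⟩
  simp only [hχ, FreeMonoid.toList_map] at this
  rw [← this]
  have e : ∀ (n m : ℕ) (l : List ℝ), n = m → c n (pt _ l) = c m (pt _ l) := by
    rintro n m l rfl; rfl
  exact e _ _ _ (by simp)

end Vale.Agent.P058
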